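import Vale.Agent.P182.H887.GConn

/-!
# Hom, Ext and theta of an object in constant form
-/

namespace Vale.Agent.P182.H887

open Module

variable {L : Type*} [Field L] {V : Type*} [AddCommGroup V] [Module L V]
variable {J : Type*} [Fintype J]

/-- the map `x ↦ Ω x` -/
def omM (Ω : Matrix J J L) : (J → V) →ₗ[L] (J → V) :=
  LinearMap.pi fun l => ∑ k, Ω l k • LinearMap.proj k

theorem omM_apply (Ω : Matrix J J L) (x : J → V) (l : J) : omM Ω x l = ∑ k, Ω l k • x k := by
  simp [omM, LinearMap.sum_apply]

/-- `Hom(N, D)` for the object `D = (V, A, B)` -/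
def HomN (Ω : Matrix J J L) (A B : J → Submodule L V) : Submodule L (J → V) :=
  Submodule.pi Set.univ A ⊓ (Submodule.pi Set.univ B).comap (omM Ω)

theorem mem_HomN {Ω : Matrix J J L} {A B : J → Submodule L V} {x : J → V} :
    x ∈ HomN Ω A B ↔ (∀ l, x l ∈ A l) ∧ ∀ l, omM Ω x l ∈ B l := by
  simp [HomN, Submodule.mem_pi]

/-- the dual of `Ext(N, D)` -/
def HomD (Ω : Matrix J J L) (A B : J → Submodule L V) : Submodule L (J → Dual L V) :=
  HomN Ω (fun l => (B l).dualAnnihilator) fun l => (A l).dualAnnihilator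

theorem mem_HomD {Ω : Matrix J J L} {A B : J → Submodule L V} {y : J → Dual L V} :
    y ∈ HomD Ω A B ↔ (∀ l, ∀ v ∈ B l, y l v = 0) ∧ ∀ l, ∀ v ∈ A l, omM Ω y l v = 0 := by
  simp [HomD, mem_HomN, Submodule.mem_dualAnnihilator]

theorem om_dual_apply (Ω : Matrix J J L) (y : J → Dual L V) (l : J) (v : V) :
    omM Ω y l v = ∑ k, Ω l k * y k v := by
  rw [omM_apply, LinearMap.sum_apply]
  simp [LinearMap.smul_apply]

/-- the pairing of families of vectors and of functionals -/
theorem pairing_om {Ω : Matrix J J L} (hΩ : ∀ l k, Ω l k = - Ω k l) (y : J → Dual L V) (x : J → V) :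
    ∑ l, y l (omM Ω x l) = - ∑ l, omM Ω y l (x l) := by
  simp only [omM_apply, map_sum, map_smul, smul_eq_mul]
  have h2 : ∀ l, (∑ k, Ω l k • y k) (x l) = ∑ k, Ω l k * y k (x l) := fun l => by
    rw [LinearMap.sum_apply]; rfl
  simp only [h2]
  rw [Finset.sum_comm, ← Finset.sum_neg_distrib]
  refine Finset.sum_congr rfl fun k _ => ?_
  rw [← Finset.sum_neg_distrib]
  refine Finset.sum_congr rfl fun l _ => ?_
  rw [hΩ l k]
  ring

theorem finrank_map_add [FiniteDimensional L V] {W : Type*} [AddCommGroup W] [Module L W]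
    (f : V →ₗ[L] W) (P : Submodule L V) :
    finrank L (P.map f) + finrank L (P ⊓ LinearMap.ker f : Submodule L V) = finrank L P := by
  have h := LinearMap.finrank_range_add_finrank_ker (f.domRestrict P)
  rw [LinearMap.range_domRestrict] at h
  rw [← h]
  congr 1
  have h1 : LinearMap.ker (f.domRestrict P) = (P ⊓ LinearMap.ker f).comap P.subtype := by
    ext v
    simp
  rw [h1]
  exact (LinearEquiv.finrank_eq (Submodule.comapSubtypeEquivOfLe inf_le_left)).symm

theorem finrank_pi [FiniteDimensional L V] (A : J → Submodule L V) :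
    finrank L (Submodule.pi Set.univ A) = ∑ l, finrank L (A l) := by
  classical
  rw [← Module.finrank_pi_fintype L (M := fun l => A l)]
  refine LinearEquiv.finrank_eq ?_
  exact
    { toFun := fun x l => ⟨x.1 l, by simpa using (Submodule.mem_pi.mp x.2) l (Set.mem_univ _)⟩
      invFun := fun x => ⟨fun l => x l, by simp [Submodule.mem_pi]⟩
      map_add' := fun x y => rfl
      map_smul' := fun a x => rfl
      left_inv := fun x => rfl
      right_inv := fun x => rfl }

/-- the total level -/
noncomputable def theta (A B : J → Submodule L V) (T : Submodule L V) : ℤ :=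
  ∑ l, ((finrank L (A l ⊓ T : Submodule L V) : ℤ) + finrank L (B l ⊓ T : Submodule L V)
    - finrank L T)

theorem theta_bot (A B : J → Submodule L V) : theta A B ⊥ = 0 := by
  refine Finset.sum_eq_zero fun l _ => ?_
  rw [inf_bot_eq, inf_bot_eq, finrank_bot]
  norm_num

theorem theta_top (A B : J → Submodule L V) :
    theta A B ⊤ = ∑ l, ((finrank L (A l) : ℤ) + finrank L (B l) - finrank L V) := by
  refine Finset.sum_congr rfl fun l _ => ?_
  rw [inf_top_eq, inf_top_eq, finrank_top]

/-- **Riemann-Roch.** -/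
theorem hom_sub_ext [FiniteDimensional L V] {Ω : Matrix J J L} (hΩ : ∀ l k, Ω l k = - Ω k l)
    (A B : J → Submodule L V) :
    (finrank L (HomN Ω A B) : ℤ) - finrank L (HomD Ω A B) = theta A B ⊤ := by
  classical
  rw [theta_top]
  set E := Submodule.pi Set.univ A with hE
  set P := Submodule.pi Set.univ B with hP
  -- the annihilator
  let Φ : (J → Dual L V) ≃ₗ[L] Dual L (J → V) := LinearMap.lsum L (fun _ : J => V) L
  have hΦ : ∀ y x, Φ y x = ∑ l, y l (x l) := by
    intro y x
    simp [Φ, LinearMap.lsum_apply, LinearMap.sum_apply]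
  have h1 : (HomD Ω A B).map (Φ : (J → Dual L V) →ₗ[L] Dual L (J → V)) =
      (E.map (omM Ω) ⊔ P).dualAnnihilator := by
    ext ξ
    rw [Submodule.mem_map_equiv, mem_HomD, Submodule.dualAnnihilator_sup_eq, Submodule.mem_inf]
    set y := Φ.symm ξ with hy
    have hξ : ξ = Φ y := (Φ.apply_symm_apply ξ).symm
    rw [and_comm]
    refine and_congr ?_ ?_
    · rw [Submodule.mem_dualAnnihilator]
      constructor
      · intro h w hw
        obtain ⟨x, hx, rfl⟩ := hw
        rw [hξ, hΦ, pairing_om hΩ, neg_eq_zero]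
        exact Finset.sum_eq_zero fun l _ => h l _ (by simpa using (Submodule.mem_pi.mp hx) l (Set.mem_univ _))
      · intro h l v hv
        have h2 := h (omM Ω (Pi.single l v)) (Submodule.mem_map_of_mem (by
          rw [hE, Submodule.mem_pi]
          intro k _
          by_cases hk : k = l
          · subst hk; rwa [Pi.single_eq_same]
          · rw [Pi.single_eq_of_ne hk]; exact Submodule.zero_mem _))
        rw [hξ, hΦ, pairing_om hΩ, neg_eq_zero, Finset.sum_eq_single l] at h2
        · rwa [Pi.single_eq_same] at h2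
        · intro k _ hk
          rw [Pi.single_eq_of_ne hk, map_zero]
        · intro h; exact absurd (Finset.mem_univ _) h
    · rw [Submodule.mem_dualAnnihilator]
      constructor
      · intro h w hw
        rw [hξ, hΦ]
        exact Finset.sum_eq_zero fun l _ => h l _ (by simpa using (Submodule.mem_pi.mp hw) l (Set.mem_univ _))
      · intro h l v hv
        have h2 := h (Pi.single l v) (by
          rw [hP, Submodule.mem_pi]
          intro k _
          by_cases hk : k = l
          · subst hk; rwa [Pi.single_eq_same]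
          · rw [Pi.single_eq_of_ne hk]; exact Submodule.zero_mem _)
        rw [hξ, hΦ, Finset.sum_eq_single l] at h2
        · rwa [Pi.single_eq_same] at h2
        · intro k _ hk
          rw [Pi.single_eq_of_ne hk, map_zero]
        · intro h; exact absurd (Finset.mem_univ _) h
  have h2 : finrank L (HomD Ω A B) = finrank L (E.map (omM Ω) ⊔ P).dualAnnihilator := by
    rw [← h1]
    exact (LinearEquiv.finrank_eq (Submodule.equivMapOfInjective _ Φ.injective _))
  have h3 := Subspace.finrank_add_finrank_dualAnnihilator_eq (E.map (omM Ω) ⊔ P)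
  have h4 := Submodule.finrank_sup_add_finrank_inf_eq (E.map (omM Ω)) P
  have h5 := finrank_map_add (omM Ω) E
  have h6 := finrank_map_add (omM Ω) (HomN Ω A B)
  have h7 : (HomN Ω A B).map (omM Ω) = E.map (omM Ω) ⊓ P := by
    ext w
    constructor
    · rintro ⟨x, hx, rfl⟩
      exact ⟨⟨x, hx.1, rfl⟩, hx.2⟩
    · rintro ⟨⟨x, hx, rfl⟩, hw⟩
      exact ⟨x, ⟨hx, hw⟩, rfl⟩
  have h8 : (HomN Ω A B ⊓ LinearMap.ker (omM Ω) : Submodule L (J → V)) =
      E ⊓ LinearMap.ker (omM Ω) := by
    ext x
    simp only [HomN, Submodule.mem_inf, Submodule.mem_comap, LinearMap.mem_ker]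
    constructor
    · rintro ⟨⟨h, _⟩, h'⟩; exact ⟨h, h'⟩
    · rintro ⟨h, h'⟩; exact ⟨⟨h, by rw [h']; exact Submodule.zero_mem _⟩, h'⟩
  rw [h7, h8] at h6
  have h9 : finrank L (J → V) = ∑ _l : J, finrank L V := by
    rw [Module.finrank_pi_fintype]
  rw [h9] at h3
  have hEr := finrank_pi A
  have hPr := finrank_pi B
  rw [← hE] at hEr
  rw [← hP] at hPr
  rw [Finset.sum_sub_distrib, Finset.sum_add_distrib]
  have e1 : (∑ l, (finrank L (A l) : ℤ)) = ((finrank L E : ℕ) : ℤ) := by rw [hEr]; push_cast; rfl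
  have e2 : (∑ l, (finrank L (B l) : ℤ)) = ((finrank L P : ℕ) : ℤ) := by rw [hPr]; push_cast; rfl
  have e3 : (∑ _l : J, (finrank L V : ℤ)) = ((∑ _l : J, finrank L V : ℕ) : ℤ) := by push_cast; rfl
  rw [e1, e2, e3, ← h3, ← h2]
  push_cast
  omega

end Vale.Agent.P182.H887
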