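import Vale.Agent.P182.H664.Lang
import Vale.Agent.P182.H887.Obj

/-!
# Orthogonal subspaces and the functions `th`
-/

namespace Vale.Agent.P182.H887

open Module Matrix Vale.Agent.P182.H533 Vale.Agent.P182.B1

universe u v w

section perp

variable {L : Type u} {V : Type v} [Field L] [AddCommGroup V] [Module L V]
  {q : V →ₗ[L] V →ₗ[L] L}

theorem perp_anti {A B : Submodule L V} (h : A ≤ B) : perp q B ≤ perp q A :=
  fun _ hv w hw => hv w (h hw)

theorem le_perp_iff (hq : IsForm q) {A B : Submodule L V} : A ≤ perp q B ↔ B ≤ perp q A := by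
  constructor <;> exact fun h v hv w hw => by rw [hq.symm]; exact h hw v hv

theorem perp_sup (hq : IsForm q) (A B : Submodule L V) :
    perp q (A ⊔ B) = perp q A ⊓ perp q B := by
  apply le_antisymm
  · exact le_inf (perp_anti le_sup_left) (perp_anti le_sup_right)
  · rw [le_perp_iff hq]
    exact sup_le ((le_perp_iff hq).mp inf_le_left) ((le_perp_iff hq).mp inf_le_right)

theorem perp_bot : perp q (⊥ : Submodule L V) = ⊤ := by
  rw [eq_top_iff]
  intro v _ w hw
  rw [(Submodule.mem_bot L).mp hw, map_zero]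

theorem perp_top (hq : IsForm q) : perp q (⊤ : Submodule L V) = ⊥ := by
  rw [eq_bot_iff]
  intro v hv
  exact hq.nondeg v fun w => hv w trivial

variable [FiniteDimensional L V]

theorem finrank_perp (hq : IsForm q) (W : Submodule L V) :
    finrank L W + finrank L (perp q W) = finrank L V := by
  have h1 : perp q W = W.dualAnnihilator.comap q := by
    ext v
    rw [Submodule.mem_comap, Submodule.mem_dualAnnihilator, mem_perp]
  have hi := hq.injective
  have hs : Function.Surjective q := by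
    have := (LinearMap.injective_iff_surjective_of_finrank_eq_finrank
      (f := (q : V →ₗ[L] Dual L V)) (Subspace.dual_finrank_eq).symm).mp hi
    exact this
  have h2 := finrank_map_add (q : V →ₗ[L] Dual L V) (perp q W)
  have h3 : (perp q W).map (q : V →ₗ[L] Dual L V) = W.dualAnnihilator := by
    rw [h1]
    exact Submodule.map_comap_eq_of_surjective hs _
  have h4 : LinearMap.ker (q : V →ₗ[L] Dual L V) = ⊥ := LinearMap.ker_eq_bot.mpr hi
  rw [h3, h4, inf_bot_eq, finrank_bot, add_zero] at h2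
  rw [← h2]
  exact Subspace.finrank_add_finrank_dualAnnihilator_eq W

theorem perp_perp (hq : IsForm q) (W : Submodule L V) : perp q (perp q W) = W := by
  have h1 : W ≤ perp q (perp q W) := (le_perp_iff hq).mpr le_rfl
  refine (Submodule.eq_of_le_of_finrank_eq h1 ?_).symm
  have h2 := finrank_perp hq W
  have h3 := finrank_perp hq (perp q W)
  omega

theorem perp_inf (hq : IsForm q) (A B : Submodule L V) :
    perp q (A ⊓ B) = perp q A ⊔ perp q B := by
  rw [← perp_perp hq (perp q A ⊔ perp q B), perp_sup hq, perp_perp hq, perp_perp hq]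

theorem finrank_inf_perp (hq : IsForm q) (A W : Submodule L V) :
    (finrank L (perp q W ⊓ perp q A : Submodule L V) : ℤ) =
      finrank L V - finrank L W - finrank L A + finrank L (W ⊓ A : Submodule L V) := by
  rw [← perp_sup hq]
  have h1 := finrank_perp hq (W ⊔ A)
  have h2 := Submodule.finrank_sup_add_finrank_inf_eq W A
  omega

end perp

section th

variable {L : Type u} {V : Type v} {J : Type w} [Field L] [AddCommGroup V] [Module L V]
  [FiniteDimensional L V]

theorem finrank_supermod (F X Y : Submodule L V) :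
    finrank L (X ⊓ F : Submodule L V) + finrank L (Y ⊓ F : Submodule L V) ≤
      finrank L (X ⊓ Y ⊓ F : Submodule L V) + finrank L ((X ⊔ Y) ⊓ F : Submodule L V) := by
  have h1 := Submodule.finrank_sup_add_finrank_inf_eq (X ⊓ F) (Y ⊓ F)
  have h2 : (X ⊓ F ⊓ (Y ⊓ F) : Submodule L V) = X ⊓ Y ⊓ F :=
    (inf_inf_distrib_right X Y F).symm
  have h3 : finrank L (X ⊓ F ⊔ Y ⊓ F : Submodule L V) ≤ finrank L ((X ⊔ Y) ⊓ F : Submodule L V) :=
    Submodule.finrank_mono (sup_le (inf_le_inf_right _ le_sup_left) (inf_le_inf_right _ le_sup_right))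
  rw [h2] at h1
  omega

variable {𝒟 : Cfg L V J}

theorem th_supermod (s : Fin 3) (i : ℕ) (X Y : Submodule L V) :
    𝒟.th s i X + 𝒟.th s i Y ≤ 𝒟.th s i (X ⊓ Y) + 𝒟.th s i (X ⊔ Y) := by
  have h1 := finrank_supermod (𝒟.F s i) X Y
  have h2 := finrank_supermod (perp 𝒟.q (𝒟.F s i)) X Y
  have h3 := Submodule.finrank_sup_add_finrank_inf_eq X Y
  simp only [Cfg.th]
  omega

theorem th_perp (hq : IsForm 𝒟.q) (s : Fin 3) (i : ℕ) (W : Submodule L V) :
    𝒟.th s i (perp 𝒟.q W) = 𝒟.th s i W := by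
  have h1 := finrank_inf_perp hq (𝒟.F s i) W
  have h2 := finrank_inf_perp hq (perp 𝒟.q (𝒟.F s i)) W
  rw [perp_perp hq] at h2
  have h3 := finrank_perp hq W
  have h4 := finrank_perp hq (𝒟.F s i)
  simp only [Cfg.th]
  omega

theorem th_le_inf_perp (hq : IsForm 𝒟.q) (s : Fin 3) (i : ℕ) (W : Submodule L V) :
    𝒟.th s i W ≤ 𝒟.th s i (W ⊓ perp 𝒟.q W) := by
  have h1 := th_supermod (𝒟 := 𝒟) s i W (perp 𝒟.q W)
  have h2 := th_perp hq s i (W ⊓ perp 𝒟.q W)
  rw [perp_inf hq, perp_perp hq, sup_comm] at h2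
  rw [th_perp hq] at h1
  omega

theorem iso_inf_perp (hq : IsForm 𝒟.q) (W : Submodule L V) : 𝒟.Iso (W ⊓ perp 𝒟.q W) := by
  show W ⊓ perp 𝒟.q W ≤ perp 𝒟.q (W ⊓ perp 𝒟.q W)
  rw [perp_inf hq, perp_perp hq]
  exact inf_le_right.trans le_sup_left

variable [Fintype J]

theorem theta_le_inf_perp (hq : IsForm 𝒟.q) (W : Submodule L V) :
    𝒟.theta W ≤ 𝒟.theta (W ⊓ perp 𝒟.q W) :=
  Finset.sum_le_sum fun _ _ => th_le_inf_perp hq _ _ W

omit [Fintype J] [FiniteDimensional L V] in
theorem th_bot (s : Fin 3) (i : ℕ) : 𝒟.th s i ⊥ = 0 := by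
  simp only [Cfg.th]
  rw [bot_inf_eq, bot_inf_eq, finrank_bot]
  norm_num

omit [FiniteDimensional L V] in
theorem theta_bot' : 𝒟.theta ⊥ = 0 := Finset.sum_eq_zero fun _ _ => th_bot _ _

end th

end Vale.Agent.P182.H887
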