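import Vale.Agent.P182.H887.MT
import Vale.Agent.P182.H664.Lang

/-!
# MT' in the common language
-/

namespace Vale.Agent.P182.H887

open Module Matrix Vale.Agent.P182.H533

universe u v w

variable {L : Type u} {S : Type v} {J : Type w} [Field L] [AddCommGroup S] [Module L S]
  [Fintype J] [DecidableEq J]

omit [DecidableEq J] in
theorem homN_eq (Ω : Matrix J J L) (A B : J → Submodule L S) :
    B1.HomN Ω A B = HomN Ω A B := by
  ext x
  rw [mem_HomN]
  refine and_congr_right fun _ => forall_congr' fun l => ?_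
  rw [omM_apply]

omit [DecidableEq J] in
theorem homD_eq (Ω : Matrix J J L) (A B : J → Submodule L S) :
    B1.HomD Ω A B = HomD Ω A B := homN_eq _ _ _

omit [DecidableEq J] in
theorem chiJ_eq (A B : J → Submodule L S) (T : Submodule L S) :
    B1.chiJ A B T = theta A B T := rfl

/-- the chains of an arm -/
def chn (arm : J → Fin 3) (A B : J → Submodule L S) (s : Fin 3) : J ⊕ J → Submodule L S
  | Sum.inl l => if arm l = s then A l else ⊥
  | Sum.inr l => if arm l = s then B l else ⊥

/-- `N1sq` in the form of H96 -/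
theorem n1sq_of {arm : J → Fin 3} {ord : J → J → Prop} {Ω : Matrix J J L}
    (hΩ : ∀ l k, Ω l k = - Ω k l)
    (h : ∀ g : Matrix J J L, (∀ l k, g l k = g k l) → (∀ l k, arm l = arm k → g l k = 0) →
      (∀ l k, arm l = arm k → ord l k → ∑ j, g l j * Ω k j = 0) →
      (∀ s i j, ∑ l, ∑ k, g i l * Gm arm Ω s l k * g k j = 0) → g = 0) : N1sq arm ord Ω := by
  intro C h1 h2 h3 h4
  refine h C (fun l k => by rw [← Matrix.transpose_apply C, h1]) h2 (fun l k hlk ho => ?_)
    fun s i j => ?_
  · have h5 := h3 l k hlk ho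
    rw [Matrix.mul_apply] at h5
    rw [← neg_eq_zero, ← Finset.sum_neg_distrib, ← h5]
    refine Finset.sum_congr rfl fun j _ => ?_
    rw [hΩ k j]
    ring
  · have h5 := congrFun (congrFun (h4 s) i) j
    rw [Matrix.mul_apply, Matrix.zero_apply] at h5
    rw [← h5, Finset.sum_comm]
    refine Finset.sum_congr rfl fun k _ => ?_
    rw [Matrix.mul_apply, Finset.sum_mul]

/-- **MT' in the common language.** -/
theorem mtJ [FiniteDimensional L S] {arm : J → Fin 3} {ord : J → J → Prop} {Ω : Matrix J J L}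
    (hΩ : Ωᵀ = -Ω) (hN : N1sq arm ord Ω) {A B : J → Submodule L S}
    (hAA : ∀ l k, arm l = arm k → A l ≤ A k ∨ A k ≤ A l)
    (hBB : ∀ l k, arm l = arm k → B l ≤ B k ∨ B k ≤ B l)
    (hAB : ∀ l k, arm l = arm k → A k ≤ B l)
    (hord : ∀ l k, arm l = arm k → ord l k → B k ≤ B l)
    (hV : B1.GLVersal Ω arm A B) (hT : ∀ T, B1.chiJ A B T ≤ B1.chiJ A B ⊤) :
    B1.HomD Ω A B = ⊥ ∧ (finrank L (B1.HomN Ω A B) : ℤ) = B1.chiJ A B ⊤ := by
  have hΩ' : ∀ l k, Ω l k = - Ω k l := fun l k => by
    rw [← Matrix.neg_apply, ← hΩ, Matrix.transpose_apply]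
  rw [homN_eq, homD_eq]
  have hA : (fun l => chn arm A B (arm l) (Sum.inl l)) = A := by
    funext l
    simp [chn]
  have hB : (fun l => chn arm A B (arm l) (Sum.inr l)) = B := by
    funext l
    simp [chn]
  have key := mt' (κ := J ⊕ J) (a := Sum.inl) (b := Sum.inr) hΩ' hN (F := chn arm A B) ?_ ?_ ?_ ?_ ?_
  · rwa [hA, hB] at key
  · intro r η hη
    obtain ⟨c, h1, h2, h3⟩ := hV r η hη
    refine ⟨⟨c.d, c.δ, c.leib, c.smul⟩, ?_, h3⟩
    rintro s (l | l) v hv
    · by_cases hl : arm l = s
      · simp only [chn, if_pos hl] at hv ⊢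
        rw [← hl]
        exact h1 l v hv
      · simp only [chn, if_neg hl, Submodule.mem_bot] at hv ⊢
        rw [hv, map_zero, map_zero, sub_zero]
    · by_cases hl : arm l = s
      · simp only [chn, if_pos hl] at hv ⊢
        rw [← hl]
        exact h2 l v hv
      · simp only [chn, if_neg hl, Submodule.mem_bot] at hv ⊢
        rw [hv, map_zero, map_zero, sub_zero]
  · rintro s (i | i) (j | j) <;> by_cases hi : arm i = s <;> by_cases hj : arm j = s <;>
      simp only [chn, if_pos, if_neg, hi, hj, bot_le, true_or, or_true, not_false_eq_true]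
    · exact hAA i j (hi.trans hj.symm)
    · exact Or.inl (hAB j i (hj.trans hi.symm))
    · exact Or.inr (hAB i j (hi.trans hj.symm))
    · exact hBB i j (hi.trans hj.symm)
  · intro l k hlk
    simp only [chn, if_true]
    exact hAB l k hlk
  · intro l k hlk ho
    simp only [chn, if_true]
    exact hord l k hlk ho
  · rw [hA, hB]
    exact hT

end Vale.Agent.P182.H887
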