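import Vale.Agent.P182.H887.Perp
import Mathlib.Data.Int.LeastGreatest

/-!
# Rigid isotropic subspaces from maximality
-/

namespace Vale.Agent.P182.H887

open Module Matrix Vale.Agent.P182.H533 Vale.Agent.P182.B1

universe u v w

variable {L : Type u} {V : Type v} {J : Type w} [Field L] [AddCommGroup V] [Module L V]

/-- `Hom_fl(Z, V/Z) = 0` -/
def Rigid (𝒟 : Cfg L V J) (Z : Submodule L V) : Prop :=
  ∀ ε : Z →ₗ[L] V ⧸ Z,
    (∀ s i, ∀ v : Z, (v : V) ∈ 𝒟.F s i → ε v ∈ (𝒟.F s i).map Z.mkQ) →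
    (∀ s i, ∀ v : Z, (v : V) ∈ perp 𝒟.q (𝒟.F s i) → ε v ∈ (perp 𝒟.q (𝒟.F s i)).map Z.mkQ) →
    ε = 0

section triple

variable {Z : Submodule L V} (ε : Z →ₗ[L] V ⧸ Z)

/-- the kernel of `ε` -/
def kerT : Submodule L V := (LinearMap.ker ε).map Z.subtype

/-- the preimage of the image of `ε` -/
def imT : Submodule L V := (LinearMap.range ε).comap Z.mkQ

theorem kerT_le : kerT ε ≤ Z := by
  rintro _ ⟨v, _, rfl⟩
  exact v.2

theorem le_imT : Z ≤ imT ε := by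
  intro v hv
  show Z.mkQ v ∈ LinearMap.range ε
  rw [mkQ_eq_zero.mpr hv]
  exact zero_mem _

theorem eq_zero_of_kerT (h : Z ≤ kerT ε) : ε = 0 := by
  ext v
  obtain ⟨w, hw, hwv⟩ := h v.2
  have : w = v := Subtype.ext hwv
  rw [← this]
  exact hw

variable [FiniteDimensional L V]

theorem finrank_triple (F : Submodule L V) (hF : ∀ v : Z, (v : V) ∈ F → ε v ∈ F.map Z.mkQ) :
    2 * finrank L (Z ⊓ F : Submodule L V) ≤
      finrank L (kerT ε ⊓ F : Submodule L V) + finrank L (imT ε ⊓ F : Submodule L V) := by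
  -- the image of `Z ⊓ F` under `ε`
  have h1 := finrank_map_add ε (F.comap Z.subtype)
  have h2 := finrank_map_add Z.mkQ (imT ε ⊓ F)
  have h3 : finrank L (F.comap Z.subtype) = finrank L (Z ⊓ F : Submodule L V) := by
    have h := finrank_map_add Z.subtype (F.comap Z.subtype)
    rw [Submodule.ker_subtype, inf_bot_eq, finrank_bot, add_zero, Submodule.map_comap_subtype] at h
    exact h.symm
  have h4 : finrank L (F.comap Z.subtype ⊓ LinearMap.ker ε : Submodule L Z) =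
      finrank L (kerT ε ⊓ F : Submodule L V) := by
    have h := finrank_map_add Z.subtype (F.comap Z.subtype ⊓ LinearMap.ker ε)
    rw [Submodule.ker_subtype, inf_bot_eq, finrank_bot, add_zero] at h
    rw [← h]
    have h' : (F.comap Z.subtype ⊓ LinearMap.ker ε : Submodule L Z).map Z.subtype =
        (kerT ε ⊓ F : Submodule L V) := by
      ext v
      constructor
      · rintro ⟨w, ⟨hw1, hw2⟩, rfl⟩
        exact ⟨⟨w, hw2, rfl⟩, hw1⟩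
      · rintro ⟨⟨w, hw, rfl⟩, hw2⟩
        exact ⟨w, ⟨hw2, hw⟩, rfl⟩
    rw [h']
  have h5 : (F.comap Z.subtype).map ε ≤ (imT ε ⊓ F).map Z.mkQ := by
    rintro _ ⟨v, hv, rfl⟩
    obtain ⟨f, hf, hfv⟩ := hF v hv
    refine ⟨f, ⟨?_, hf⟩, hfv⟩
    show Z.mkQ f ∈ LinearMap.range ε
    rw [hfv]
    exact ⟨v, rfl⟩
  have h6 : (imT ε ⊓ F ⊓ LinearMap.ker Z.mkQ : Submodule L V) = Z ⊓ F := by
    rw [Submodule.ker_mkQ]
    ext v
    constructor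
    · rintro ⟨⟨_, h⟩, h'⟩; exact ⟨h', h⟩
    · rintro ⟨h, h'⟩; exact ⟨⟨le_imT ε h, h'⟩, h⟩
  have h7 := Submodule.finrank_mono h5
  rw [h6] at h2
  rw [h3, h4] at h1
  omega

theorem finrank_triple_top :
    2 * finrank L Z = finrank L (kerT ε) + finrank L (imT ε) := by
  have h1 := LinearMap.finrank_range_add_finrank_ker ε
  have h2 : finrank L (kerT ε) = finrank L (LinearMap.ker ε) := by
    have h := finrank_map_add Z.subtype (LinearMap.ker ε)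
    rw [Submodule.ker_subtype, inf_bot_eq, finrank_bot, add_zero] at h
    exact h
  have h3 := finrank_map_add Z.mkQ (imT ε)
  have h4 : (imT ε).map Z.mkQ = LinearMap.range ε :=
    Submodule.map_comap_eq_of_surjective (Submodule.mkQ_surjective Z) _
  have h5 : (imT ε ⊓ LinearMap.ker Z.mkQ : Submodule L V) = Z := by
    rw [Submodule.ker_mkQ]
    exact inf_eq_right.mpr (le_imT ε)
  rw [h4, h5] at h3
  omega

end triple

section main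

variable [FiniteDimensional L V] {𝒟 : Cfg L V J}

theorem th_triple {Z : Submodule L V} {ε : Z →ₗ[L] V ⧸ Z}
    (h1 : ∀ s i, ∀ v : Z, (v : V) ∈ 𝒟.F s i → ε v ∈ (𝒟.F s i).map Z.mkQ)
    (h2 : ∀ s i, ∀ v : Z, (v : V) ∈ perp 𝒟.q (𝒟.F s i) → ε v ∈ (perp 𝒟.q (𝒟.F s i)).map Z.mkQ)
    (s : Fin 3) (i : ℕ) : 2 * 𝒟.th s i Z ≤ 𝒟.th s i (kerT ε) + 𝒟.th s i (imT ε) := by
  have e1 := finrank_triple ε _ (h1 s i)
  have e2 := finrank_triple ε _ (h2 s i)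
  have e3 := finrank_triple_top ε
  simp only [Cfg.th]
  omega

omit [FiniteDimensional L V] in
theorem iso_mono {S T : Submodule L V} (h : S ≤ T) (hT : 𝒟.Iso T) : 𝒟.Iso S :=
  h.trans (hT.trans (perp_anti h))

omit [FiniteDimensional L V] in
theorem iso_bot : 𝒟.Iso ⊥ := bot_le

theorem finrank_kerT_lt {Z : Submodule L V} {ε : Z →ₗ[L] V ⧸ Z} (h : ε ≠ 0) :
    finrank L (kerT ε) < finrank L Z := by
  refine Submodule.finrank_lt_finrank_of_lt (lt_of_le_of_ne (kerT_le ε) fun h' => h ?_)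
  exact eq_zero_of_kerT ε h'.ge

omit [FiniteDimensional L V] in
/-- a bounded integer function on the isotropic subspaces with a property attains its maximum on a
subspace of minimal dimension -/
theorem exists_max_min (P : Submodule L V → Prop) (φ : Submodule L V → ℤ) (b : ℤ)
    (hb : ∀ W, P W → φ W ≤ b) {W₀ : Submodule L V} (h0 : P W₀) :
    ∃ Z, P Z ∧ φ W₀ ≤ φ Z ∧ (∀ W, P W → φ W ≤ φ Z) ∧
      ∀ W, P W → finrank L W < finrank L Z → φ W < φ Z := by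
  classical
  -- maximum
  obtain ⟨m, ⟨Z1, hZ1, hm⟩, hmax⟩ := Int.exists_greatest_of_bdd
    (P := fun m => ∃ Z, P Z ∧ φ Z = m) ⟨b, fun z ⟨Z, hZ, hz⟩ => hz ▸ hb Z hZ⟩ ⟨φ W₀, W₀, h0, rfl⟩
  -- minimal dimension
  have hex : ∃ d, ∃ Z, P Z ∧ φ Z = m ∧ finrank L Z = d := ⟨_, Z1, hZ1, hm, rfl⟩
  obtain ⟨Z, hZ, hφ, hd⟩ := Nat.find_spec hex
  refine ⟨Z, hZ, ?_, fun W hW => ?_, fun W hW hlt => ?_⟩
  · rw [hφ]; exact hmax _ ⟨W₀, h0, rfl⟩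
  · rw [hφ]; exact hmax _ ⟨W, hW, rfl⟩
  · have h1 : φ W ≤ m := hmax _ ⟨W, hW, rfl⟩
    rw [hφ]
    refine lt_of_le_of_ne h1 fun h2 => ?_
    rw [hd] at hlt
    exact Nat.find_min hex hlt ⟨W, hW, h2, rfl⟩

theorem th_le (s : Fin 3) (i : ℕ) (W : Submodule L V) : 𝒟.th s i W ≤ finrank L V := by
  have h1 : finrank L (W ⊓ 𝒟.F s i : Submodule L V) ≤ finrank L W :=
    Submodule.finrank_mono inf_le_left
  have h2 : finrank L (W ⊓ perp 𝒟.q (𝒟.F s i) : Submodule L V) ≤ finrank L V :=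
    Submodule.finrank_le _
  simp only [Cfg.th]
  omega

theorem neg_th_le (s : Fin 3) (i : ℕ) (W : Submodule L V) : - 𝒟.th s i W ≤ finrank L V := by
  have h2 : finrank L W ≤ finrank L V := Submodule.finrank_le _
  simp only [Cfg.th]
  omega

variable [Fintype J]

theorem theta_le (W : Submodule L V) : 𝒟.theta W ≤ ∑ _l : J, (finrank L V : ℤ) :=
  Finset.sum_le_sum fun _ _ => th_le _ _ W

theorem theta_triple {Z : Submodule L V} {ε : Z →ₗ[L] V ⧸ Z}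
    (h1 : ∀ s i, ∀ v : Z, (v : V) ∈ 𝒟.F s i → ε v ∈ (𝒟.F s i).map Z.mkQ)
    (h2 : ∀ s i, ∀ v : Z, (v : V) ∈ perp 𝒟.q (𝒟.F s i) → ε v ∈ (perp 𝒟.q (𝒟.F s i)).map Z.mkQ) :
    2 * 𝒟.theta Z ≤ 𝒟.theta (kerT ε) + 𝒟.theta (imT ε) := by
  rw [Cfg.theta, Cfg.theta, Cfg.theta, Finset.mul_sum, ← Finset.sum_add_distrib]
  exact Finset.sum_le_sum fun _ _ => th_triple h1 h2 _ _

/-- **(A)**: the smallest maximiser is rigid. -/
theorem exists_rigid_max (hg : 𝒟.Good) (h : ¬ 𝒟.Semistable) :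
    ∃ Z, 𝒟.Iso Z ∧ Rigid 𝒟 Z ∧ 0 < 𝒟.theta Z ∧ ∀ W : Submodule L V, 𝒟.theta W ≤ 𝒟.theta Z := by
  have h' : ∃ S, 𝒟.Iso S ∧ 0 < 𝒟.theta S := by
    by_contra h1
    push Not at h1
    exact h h1
  obtain ⟨S₀, hS₀, hpos⟩ := h'
  obtain ⟨Z, hZ, h0, hmax, hmin⟩ := exists_max_min 𝒟.Iso 𝒟.theta _
    (fun W _ => theta_le W) hS₀
  have hall : ∀ W : Submodule L V, 𝒟.theta W ≤ 𝒟.theta Z := fun W =>
    (theta_le_inf_perp hg.form W).trans (hmax _ (iso_inf_perp hg.form W))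
  refine ⟨Z, hZ, fun ε h1 h2 => ?_, by omega, hall⟩
  by_contra hε
  have e1 := theta_triple h1 h2
  have e2 := hmin _ (iso_mono (kerT_le ε) hZ) (finrank_kerT_lt hε)
  have e3 := hall (imT ε)
  omega

theorem sum_eq_of_le {f g : J → ℤ} (h : ∀ l, f l ≤ g l) (hs : ∑ l, g l ≤ ∑ l, f l) (l : J) :
    f l = g l := by
  have h1 : ∑ l, f l = ∑ l, g l := le_antisymm (Finset.sum_le_sum fun l _ => h l) hs
  exact (Finset.sum_eq_sum_iff_of_le fun i _ => h i).mp h1 l (Finset.mem_univ l)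

/-- **(B)**, general form. -/
theorem exists_rigid_aux (hg : 𝒟.Good) (hs : 𝒟.Semistable) (φ : Submodule L V → ℤ)
    (hφb : ∃ b, ∀ W, φ W ≤ b) (hφ0 : φ ⊥ = 0)
    (hφ1 : ∀ W, 𝒟.theta W = 0 → φ W ≤ φ (W ⊓ perp 𝒟.q W))
    (hφ2 : ∀ (Z : Submodule L V) (ε : Z →ₗ[L] V ⧸ Z), 𝒟.Iso Z →
      (∀ s i, ∀ v : Z, (v : V) ∈ 𝒟.F s i → ε v ∈ (𝒟.F s i).map Z.mkQ) →
      (∀ s i, ∀ v : Z, (v : V) ∈ perp 𝒟.q (𝒟.F s i) → ε v ∈ (perp 𝒟.q (𝒟.F s i)).map Z.mkQ) →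
      𝒟.theta Z = 0 → 𝒟.theta (kerT ε) = 0 → 𝒟.theta (imT ε) = 0 →
      2 * φ Z ≤ φ (kerT ε) + φ (imT ε))
    {S₁ : Submodule L V} (h1 : 𝒟.Iso S₁) (h2 : 𝒟.theta S₁ = 0) (h3 : 0 < φ S₁) :
    ∃ Z, 𝒟.Iso Z ∧ Z ≠ ⊥ ∧ Rigid 𝒟 Z ∧ 𝒟.theta Z = 0 := by
  obtain ⟨b, hb⟩ := hφb
  obtain ⟨Z, ⟨hZ, hZ0⟩, h0, hmax, hmin⟩ := exists_max_min (fun W => 𝒟.Iso W ∧ 𝒟.theta W = 0) φ b
    (fun W _ => hb W) ⟨h1, h2⟩
  have hle : ∀ W : Submodule L V, 𝒟.theta W ≤ 0 := fun W =>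
    (theta_le_inf_perp hg.form W).trans (hs _ (iso_inf_perp hg.form W))
  refine ⟨Z, hZ, ?_, fun ε e1 e2 => ?_, hZ0⟩
  · rintro rfl
    omega
  · by_contra hε
    have t1 := theta_triple e1 e2
    have t2 := hle (kerT ε)
    have t3 := hle (imT ε)
    have k0 : 𝒟.theta (kerT ε) = 0 := by omega
    have i0 : 𝒟.theta (imT ε) = 0 := by omega
    have t4 := hφ2 Z ε hZ e1 e2 hZ0 k0 i0
    have t5 := hmin _ ⟨iso_mono (kerT_le ε) hZ, k0⟩ (finrank_kerT_lt hε)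
    have t6 := hφ1 _ i0
    have t7 : 𝒟.theta (imT ε ⊓ perp 𝒟.q (imT ε)) = 0 :=
      le_antisymm (hle _) (by rw [← i0]; exact theta_le_inf_perp hg.form _)
    have t8 := hmax _ ⟨iso_inf_perp hg.form (imT ε), t7⟩
    omega

/-- **(B)** -/
theorem exists_rigid_zero (hg : 𝒟.Good) (hs : 𝒟.Semistable) {S₁ : Submodule L V}
    (h1 : 𝒟.Iso S₁) (h2 : 𝒟.theta S₁ = 0)
    (h3 : (∃ s i, 0 < 𝒟.th s i S₁) ∨ ∃ l, 𝒟.th (𝒟.arm l) (𝒟.c l) S₁ < 0) :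
    ∃ Z, 𝒟.Iso Z ∧ Z ≠ ⊥ ∧ Rigid 𝒟 Z ∧ 𝒟.theta Z = 0 := by
  rcases h3 with ⟨s, i, h3⟩ | ⟨l, h3⟩
  · refine exists_rigid_aux hg hs (𝒟.th s i) ⟨_, th_le s i⟩ (th_bot s i)
      (fun W _ => th_le_inf_perp hg.form s i W) (fun Z ε _ e1 e2 _ _ _ => th_triple e1 e2 s i)
      h1 h2 h3
  · have hle : ∀ W : Submodule L V, 𝒟.theta W ≤ 0 := fun W =>
      (theta_le_inf_perp hg.form W).trans (hs _ (iso_inf_perp hg.form W))
    refine exists_rigid_aux hg hs (fun W => - 𝒟.th (𝒟.arm l) (𝒟.c l) W)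
      ⟨_, neg_th_le _ _⟩ (by rw [th_bot, neg_zero]) (fun W hW => ?_)
      (fun Z ε _ e1 e2 z0 k0 i0 => ?_) h1 h2 (by omega)
    · have h4 := sum_eq_of_le (f := fun l => 𝒟.th (𝒟.arm l) (𝒟.c l) W)
        (g := fun l => 𝒟.th (𝒟.arm l) (𝒟.c l) (W ⊓ perp 𝒟.q W))
        (fun l => th_le_inf_perp hg.form _ _ W) (by
          show 𝒟.theta (W ⊓ perp 𝒟.q W) ≤ 𝒟.theta W
          rw [hW]
          exact hle _) l
      have h5 : 𝒟.th (𝒟.arm l) (𝒟.c l) W = 𝒟.th (𝒟.arm l) (𝒟.c l) (W ⊓ perp 𝒟.q W) := h4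
      rw [h5]
    · have h4 := sum_eq_of_le (f := fun l => 2 * 𝒟.th (𝒟.arm l) (𝒟.c l) Z)
        (g := fun l => 𝒟.th (𝒟.arm l) (𝒟.c l) (kerT ε) + 𝒟.th (𝒟.arm l) (𝒟.c l) (imT ε))
        (fun l => th_triple e1 e2 _ _) (by
          rw [Finset.sum_add_distrib, ← Finset.mul_sum]
          show 𝒟.theta (kerT ε) + 𝒟.theta (imT ε) ≤ 2 * 𝒟.theta Z
          omega) l
      have h5 : 2 * 𝒟.th (𝒟.arm l) (𝒟.c l) Z =
        𝒟.th (𝒟.arm l) (𝒟.c l) (kerT ε) + 𝒟.th (𝒟.arm l) (𝒟.c l) (imT ε) := h4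
      omega

end main

end Vale.Agent.P182.H887
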