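import Vale.Agent.P182.H388.NullI
import Vale.Agent.P182.H89.BaseJ
import Vale.Agent.P182.H55.FlowI

/-!
# (END), step (B), at all good parameters
-/

namespace Vale.Agent.P182.H887.EndB

open Module Matrix Vale.Agent.P182.H533 Vale.Agent.P182.B1 Vale.Agent.P182.H578
  Vale.Agent.P182.H922 Vale.Agent.P182.H588 Vale.Agent.P182.H181 Vale.Agent.P182.H983

universe u v w

variable {L : Type u} {V : Type v} {J : Type w} [Field L] [AddCommGroup V] [Module L V]
  [FiniteDimensional L V] [Fintype J] [DecidableEq J] {𝒟 : Cfg L V J} {u : J → L}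

/-- the operators of `t'` at the base `t + x t'` -/
theorem res_base {hG : 𝒟.Good} {t t' : J → V} {C : Core 𝒟.q (Res 𝒟 t)} {D : End L C.V1}
    {Dh : End L V} (h : H89.DHat hG t' C D Dh) (hrel : Rel 𝒟 t t') (x : L) (s : Fin 3) :
    C.res hG.form (opr 𝒟.q (Tt L (t + x • t')) (Gm 𝒟.arm 𝒟.Ω s) (Tt L t')) =
      C.S1 hG.form s * ((1 + x • D) * D) := by
  have hq := hG.form
  have hSA : ∀ s, IsSA 𝒟.q (Res 𝒟 t s) := Sop_SA 𝒟.arm hq (Tt L t) hG.skew
  have h3 : opr 𝒟.q (Tt L (t + x • t')) (Gm 𝒟.arm 𝒟.Ω s) (Tt L t) =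
      opr 𝒟.q (Tt L t) (Gm 𝒟.arm 𝒟.Ω s) (Tt L (t + x • t')) := by
    rw [Tt_add, Tt_smul, opr_add_left, opr_add_right, opr_smul_left, opr_smul_right,
      hrel.swap hG s]
  refine LinearMap.ext fun v => ?_
  have hv := C.V1_le v.2
  have h1 := h.mem _ hv
  have h2 := h.mem1 x h1
  have e1 : opr 𝒟.q (Tt L (t + x • t')) (Gm 𝒟.arm 𝒟.Ω s) (Tt L t') (v : V) =
      opr 𝒟.q (Tt L (t + x • t')) (Gm 𝒟.arm 𝒟.Ω s) (Tt L t) (Dh v) := by
    have e : ad 𝒟.q (Tt L t') (v : V) = ad 𝒟.q (Tt L t) (Dh v) := by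
      funext j
      rw [ad_apply, ad_apply, Tt_single, Tt_single, h.rel _ hv]
    rw [opr_apply, opr_apply, e]
  rw [C.res_apply, e1, h3, h.opr_right x t s h1]
  have e2 : opr 𝒟.q (Tt L t) (Gm 𝒟.arm 𝒟.Ω s) (Tt L t) ((1 + x • Dh) (Dh v)) =
      Res 𝒟 t s ((1 + x • Dh) (Dh v)) := rfl
  rw [e2, C.P_S hq hSA s (C.W_le_perp hq h2), h.core1 x h1, h.core _ hv, C.P_coe]
  rfl

/-- **(B) at all good parameters.** -/
theorem rB (h2 : (2 : L) ≠ 0) (hC : Ctx 𝒟 u) {t t' : J → V} (ht : t ∈ Ku 𝒟 u)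
    (ht' : t' ∈ Ku 𝒟 u) (hspan : ∀ k ∈ Ku 𝒟 u, ∃ a b : L, k = a • t + b • t')
    {C : Core 𝒟.q (Res 𝒟 t)} {D : End L C.V1} {Dh : End L V}
    (hDh : H89.DHat hC.good t' C D Dh) (hDs : IsSA C.q1 D)
    (hDc : ∀ s, D * C.S1 hC.good.form s = C.S1 hC.good.form s * D)
    (hcen : ∀ M : End L C.V1, IsSA C.q1 M →
      (∀ s, M * C.S1 hC.good.form s = C.S1 hC.good.form s * M) → M * D = D * M)
    (hC0 : RowC0 𝒟 u t C.W C.I) {x : L} (hx : H89.GoodI hC.good t' C D Dh x)
    {n : ℕ} {P : Fin n → End L C.V1} {d : Fin n → L} (hb : H388.BlkD hC.good C D P d)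
    (s : Fin 3)
    (H2 : ∀ k : End L C.V1, (∀ i, P i * k * P i = 0) →
      (∀ c : ℕ, ∀ v ∈ LinearMap.range (C.S1 hC.good.form s ^ c),
        k v ∈ LinearMap.range (C.S1 hC.good.form s ^ c)) → k ∈ H89.HHI hC.good u C s)
    {Y Y' : End L C.V1} (hY : IsSk C.q1 Y) (hYo : ∀ i, P i * Y * P i = 0)
    (hYS : Y * ((1 + x • D) ^ 2 * C.S1 hC.good.form s) =
      (1 + x • D) ^ 2 * C.S1 hC.good.form s * Y)
    (hY' : (1 + x • D) * Y' = Y * (1 + x • D)) {k : End L C.V1} (hko : ∀ i, P i * k * P i = 0)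
    (hkr : ∀ c : ℕ, ∀ v ∈ LinearMap.range (C.S1 hC.good.form s ^ c),
      k v ∈ LinearMap.range (C.S1 hC.good.form s ^ c)) :
    k * Y' - Y * k ∈ H89.HHI hC.good u C s := by
  have hG := hC.good
  have hrel : Rel 𝒟 t t' := U.rel_of_krel hC.krel ht ht'
  have hPD : ∀ i, P i * D = D * P i := fun i => by rw [hb.diag.mul_D, hb.diag.D_mul]
  have hd0 : ∀ i, 1 + x * d i ≠ 0 := fun i => hb.ne_zero hx.unit i
  obtain ⟨uu, huu⟩ := hx.unit
  obtain ⟨g', hgg, hgg'⟩ : ∃ g : End L C.V1, (1 + x • D) * g = 1 ∧ g * (1 + x • D) = 1 :=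
    ⟨↑uu⁻¹, by rw [← huu, Units.mul_inv], by rw [← huu, Units.inv_mul]⟩
  have hgD : (1 + x • D) * D = D * (1 + x • D) := by
    rw [add_mul, mul_add, one_mul, mul_one, smul_mul_assoc, mul_smul_comm]
  have hg'D : g' * D = D * g' := by
    calc g' * D = g' * (D * ((1 + x • D) * g')) := by rw [hgg, mul_one]
      _ = g' * ((1 + x • D) * D) * g' := by rw [hgD]; simp only [mul_assoc]
      _ = D * g' := by rw [← mul_assoc g', hgg', one_mul]
  -- the new data
  have hS1 : ∀ a, C.res hG.form (Res 𝒟 (t + x • t') a) = (1 + x • D) ^ 2 * C.S1 hG.form a :=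
    fun a => H89.resI hDh hrel hDc x a
  have hDP : Diag (g' * D) P (fun i => d i / (1 + x * d i)) := by
    refine ⟨hb.diag.sq, hb.diag.ortho, hb.diag.sum, fun i j hij => hb.inj ?_, ?_⟩
    · have h1 : d i / (1 + x * d i) = d j / (1 + x * d j) := hij
      rw [div_eq_div_iff (hd0 i) (hd0 j)] at h1
      linear_combination h1
    · have h1 : (1 + x • D) * ∑ i, (d i / (1 + x * d i)) • P i = D := by
        rw [Finset.mul_sum]
        conv_rhs => rw [hb.eq]
        refine Finset.sum_congr rfl fun i _ => ?_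
        have h3 : (1 + x • D) * P i = (1 + x * d i) • P i := by
          rw [add_mul, one_mul, smul_mul_assoc, hb.diag.D_mul, smul_smul, add_smul, one_smul]
        rw [mul_smul_comm, h3, smul_smul, div_mul_cancel₀ _ (hd0 i)]
      calc g' * D = g' * ((1 + x • D) * ∑ i, (d i / (1 + x * d i)) • P i) := by rw [h1]
        _ = ∑ i, (d i / (1 + x * d i)) • P i := by rw [← mul_assoc, hgg', one_mul]
  have hPg : ∀ i, P i * (1 + x • D) = (1 + x • D) * P i := fun i => H89.comm_one_add' (hPD i) x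
  have hPS : ∀ i a, P i * ((1 + x • D) ^ 2 * C.S1 hG.form a) =
      (1 + x • D) ^ 2 * C.S1 hG.form a * P i := by
    intro i a
    rw [pow_two, ← mul_assoc, ← mul_assoc, hPg, mul_assoc (1 + x • D) (P i), hPg,
      ← mul_assoc, mul_assoc _ (P i), hb.comm]
    simp only [mul_assoc]
  have hD1 : ∀ a, C.res hG.form (opr 𝒟.q (Tt L (t + x • t')) (Gm 𝒟.arm 𝒟.Ω a) (Tt L t')) =
      C.res hG.form (Res 𝒟 (t + x • t') a) * (g' * D) := by
    intro a
    have hc : (1 + x • D) * C.S1 hG.form a = C.S1 hG.form a * (1 + x • D) :=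
      H89.comm1 (hDc a) x
    rw [res_base hDh hrel x a, hS1, pow_two]
    calc C.S1 hG.form a * ((1 + x • D) * D)
        = (C.S1 hG.form a * (1 + x • D)) * D := by rw [mul_assoc]
      _ = (C.S1 hG.form a * (1 + x • D)) * ((1 + x • D) * g') * D := by rw [hgg, mul_one]
      _ = (1 + x • D) * (C.S1 hG.form a * (1 + x • D)) * g' * D := by
        rw [← hc]; simp only [mul_assoc]; rw [← mul_assoc (C.S1 hG.form a), ← hc]
        simp only [mul_assoc]
      _ = (1 + x • D) * (1 + x • D) * C.S1 hG.form a * (g' * D) := by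
        rw [← hc]; simp only [mul_assoc]
  have hPS' : ∀ i a, P i * C.res hG.form (Res 𝒟 (t + x • t') a) =
      C.res hG.form (Res 𝒟 (t + x • t') a) * P i := by
    intro i a
    rw [hS1 a]
    exact hPS i a
  have hcen' : ∀ M : End L C.V1, IsSA C.q1 M →
      (∀ a, M * C.res hG.form (Res 𝒟 (t + x • t') a) =
        C.res hG.form (Res 𝒟 (t + x • t') a) * M) → M * (g' * D) = g' * D * M := by
    intro M hM hMS
    have h1 : M * D = D * M := hx.central M hM fun a => by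
      have h3 := hMS a
      rw [hS1 a] at h3
      exact h3
    have h3 : M * (1 + x • D) = (1 + x • D) * M := H89.comm_one_add' h1 x
    have h4 : M * g' = g' * M := by
      calc M * g' = g' * (1 + x • D) * M * g' := by rw [hgg', one_mul]
        _ = g' * (M * (1 + x • D)) * g' := by rw [h3, mul_assoc g']
        _ = g' * M := by rw [mul_assoc, mul_assoc, hgg, mul_one]
    calc M * (g' * D) = M * g' * D := (mul_assoc _ _ _).symm
      _ = g' * (M * D) := by rw [h4, mul_assoc]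
      _ = g' * D * M := by rw [h1, mul_assoc]
  have hx' : t + x • t' ∈ Ku 𝒟 u := Submodule.add_mem _ ht (Submodule.smul_mem _ _ ht')
  have hspan' : ∀ r ∈ Ku 𝒟 u, ∃ a b : L, r = a • (t + x • t') + b • t' := by
    intro r hr
    obtain ⟨a, b, rfl⟩ := hspan r hr
    exact ⟨a, b - a * x, by module⟩
  have hR := H89.rowC0_base hDh hrel hDs hDc hcen hC0 hx
  refine H89.der_HHI_base hDh hrel hDs hDc hcen hPD hC0 hx s ?_ H2 hY hYo hYS hY' hko hkr
  rw [← hS1 s]
  intro H Y hY hYo hYS k hko hkr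
  exact H55.der_HHI' (t := t + x • t') hC hx' ht' hspan'
    (C := H89.coreI hDh hrel hx.onto hx.nil) hR (D := g' * D) (P := P)
    (d := fun i => d i / (1 + x * d i)) hDP hb.sa hPS' hD1 hcen' s h2 H hY hYo hYS hko hkr

end Vale.Agent.P182.H887.EndB
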