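import Vale.Agent.P182.H533.Gram
import Mathlib.LinearAlgebra.Projection
import Mathlib.LinearAlgebra.Dual.Lemmas
import Mathlib.LinearAlgebra.FiniteDimensional.Lemmas

/-!
# Connections adapted to a chain
-/

namespace Vale.Agent.P182.H887

open Module

/-- a connection over a derivation -/
structure GConn (L V : Type*) [Field L] [AddCommGroup V] [Module L V] where
  /-- the derivation -/
  d : L →+ L
  /-- the connection -/
  δ : V →+ V
  leib : ∀ a b, d (a * b) = d a * b + a * d b
  smul : ∀ (a : L) (v : V), δ (a • v) = d a • v + a • δ v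

variable {L : Type*} [Field L] {V : Type*} [AddCommGroup V] [Module L V]

theorem exists_proj (A : Submodule L V) :
    ∃ p : V →ₗ[L] V, (∀ v, p v ∈ A) ∧ ∀ v ∈ A, p v = v := by
  obtain ⟨g, hg⟩ := LinearMap.exists_leftInverse_of_injective A.subtype A.ker_subtype
  refine ⟨A.subtype ∘ₗ g, fun v => (g v).2, fun v hv => ?_⟩
  have := LinearMap.congr_fun hg ⟨v, hv⟩
  rw [LinearMap.comp_apply, LinearMap.id_apply] at this
  rw [LinearMap.comp_apply]
  have h2 : A.subtype ⟨v, hv⟩ = v := rfl
  rw [h2] at this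
  rw [this]
  rfl

/-- the block diagonal part of a connection -/
def GConn.split (c : GConn L V) (p : V →ₗ[L] V) (hp : ∀ v, p (p v) = p v) : GConn L V where
  d := c.d
  δ := AddMonoidHom.mk' (fun v => p (c.δ (p v)) + (c.δ (v - p v) - p (c.δ (v - p v)))) (by
    intro a b
    simp only [map_add, map_sub]
    abel)
  leib := c.leib
  smul a v := by
    have h1 : a • v - p (a • v) = a • (v - p v) := by rw [map_smul, smul_sub]
    show p (c.δ (p (a • v))) + (c.δ (a • v - p (a • v)) - p (c.δ (a • v - p (a • v)))) =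
      c.d a • v + a • (p (c.δ (p v)) + (c.δ (v - p v) - p (c.δ (v - p v))))
    rw [h1, map_smul, c.smul, c.smul]
    simp only [map_add, map_sub, map_smul, hp, smul_add, smul_sub]
    abel

theorem GConn.split_apply (c : GConn L V) (p : V →ₗ[L] V) (hp : ∀ v, p (p v) = p v) (v : V) :
    (c.split p hp).δ v = p (c.δ (p v)) + (c.δ (v - p v) - p (c.δ (v - p v))) := rfl

theorem GConn.adapt_finset (c : GConn L V) (T : Finset (Submodule L V))
    (hT : ∀ A ∈ T, ∀ B ∈ T, A ≤ B ∨ B ≤ A) :
    ∃ c' : GConn L V, c'.d = c.d ∧ ∀ A ∈ T, ∀ v ∈ A, c'.δ v ∈ A := by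
  classical
  induction T using Finset.induction_on with
  | empty => exact ⟨c, rfl, by simp⟩
  | insert A T _ ih =>
    obtain ⟨c', hd, hc'⟩ := ih fun X hX Y hY =>
      hT X (Finset.mem_insert_of_mem hX) Y (Finset.mem_insert_of_mem hY)
    obtain ⟨p, hp1, hp2⟩ := exists_proj A
    refine ⟨c'.split p fun v => hp2 _ (hp1 v), hd, ?_⟩
    intro X hX v hv
    rw [GConn.split_apply]
    rcases Finset.mem_insert.mp hX with rfl | hX'
    · rw [hp2 v hv, sub_self, map_zero, map_zero, sub_zero, add_zero]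
      exact hp1 _
    · have hpX : ∀ w ∈ X, p w ∈ X := by
        intro w hw
        rcases hT X hX A (Finset.mem_insert_self _ _) with h | h
        · rw [hp2 w (h hw)]; exact hw
        · exact h (hp1 w)
      have h1 := hc' X hX'
      have h2 : v - p v ∈ X := X.sub_mem hv (hpX v hv)
      exact X.add_mem (hpX _ (h1 _ (hpX v hv))) (X.sub_mem (h1 _ h2) (hpX _ (h1 _ h2)))

/-- **Adapted connections.** -/
theorem GConn.adapt {κ : Type*} [Finite κ] (c : GConn L V) (F : κ → Submodule L V)
    (hF : ∀ i j, F i ≤ F j ∨ F j ≤ F i) :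
    ∃ c' : GConn L V, c'.d = c.d ∧ ∀ i, ∀ v ∈ F i, c'.δ v ∈ F i := by
  classical
  have := Fintype.ofFinite κ
  obtain ⟨c', hd, h⟩ := c.adapt_finset (Finset.univ.image F) (by
    intro A hA B hB
    obtain ⟨i, _, rfl⟩ := Finset.mem_image.mp hA
    obtain ⟨j, _, rfl⟩ := Finset.mem_image.mp hB
    exact hF i j)
  exact ⟨c', hd, fun i => h (F i) (Finset.mem_image_of_mem _ (Finset.mem_univ _))⟩

/-- restriction (with projection) of a connection to a subspace -/
def GConn.res (c : GConn L V) (R : Submodule L V) (g : V →ₗ[L] R) (hg : ∀ v : R, g v = v) :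
    GConn L R where
  d := c.d
  δ := AddMonoidHom.mk' (fun v => g (c.δ v)) (by
    intro a b
    simp only [Submodule.coe_add, map_add])
  leib := c.leib
  smul a v := by
    show g (c.δ (a • (v : V))) = c.d a • v + a • g (c.δ v)
    rw [c.smul, map_add, map_smul, map_smul, hg]

/-- the difference of two connections over the same derivation -/
def GConn.diff (c c' : GConn L V) (h : c.d = c'.d) : V →ₗ[L] V where
  toFun v := c.δ v - c'.δ v
  map_add' a b := by
    simp only [map_add]
    abel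
  map_smul' a v := by
    rw [c.smul, c'.smul, h, RingHom.id_apply, smul_sub]
    abel

theorem GConn.diff_apply (c c' : GConn L V) (h : c.d = c'.d) (v : V) :
    c.diff c' h v = c.δ v - c'.δ v := rfl

theorem mkQ_eq_zero {R : Submodule L V} {v : V} : R.mkQ v = 0 ↔ v ∈ R := by
  rw [Submodule.mkQ_apply, Submodule.Quotient.mk_eq_zero]

/-- the induced connection on a quotient -/
def GConn.quo (c : GConn L V) (R : Submodule L V) (σ : (V ⧸ R) →ₗ[L] V)
    (hσ : ∀ w, R.mkQ (σ w) = w) : GConn L (V ⧸ R) where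
  d := c.d
  δ := AddMonoidHom.mk' (fun w => R.mkQ (c.δ (σ w))) (by
    intro a b
    simp only [map_add])
  leib := c.leib
  smul a v := by
    show R.mkQ (c.δ (σ (a • v))) = c.d a • v + a • R.mkQ (c.δ (σ v))
    rw [map_smul, c.smul, map_add, map_smul, map_smul, hσ]

theorem GConn.quo_mkQ (c : GConn L V) {R : Submodule L V} {σ : (V ⧸ R) →ₗ[L] V}
    (hσ : ∀ w, R.mkQ (σ w) = w) (hR : ∀ v ∈ R, c.δ v ∈ R) (v : V) :
    (c.quo R σ hσ).δ (R.mkQ v) = R.mkQ (c.δ v) := by
  show R.mkQ (c.δ (σ (R.mkQ v))) = R.mkQ (c.δ v)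
  rw [← sub_eq_zero, ← map_sub, ← map_sub]
  have h1 : σ (R.mkQ v) - v ∈ R := by
    rw [← mkQ_eq_zero, map_sub, hσ, sub_self]
  exact mkQ_eq_zero.mpr (hR _ h1)

theorem exists_section (R : Submodule L V) : ∃ σ : (V ⧸ R) →ₗ[L] V, ∀ w, R.mkQ (σ w) = w := by
  obtain ⟨σ, hσ⟩ := LinearMap.exists_rightInverse_of_surjective R.mkQ (Submodule.range_mkQ R)
  exact ⟨σ, fun w => LinearMap.congr_fun hσ w⟩

theorem exists_retr (R : Submodule L V) : ∃ g : V →ₗ[L] R, ∀ v : R, g v = v := by
  obtain ⟨g, hg⟩ := LinearMap.exists_leftInverse_of_injective R.subtype R.ker_subtype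
  exact ⟨g, fun w => LinearMap.congr_fun hg w⟩

end Vale.Agent.P182.H887
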