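import Vale.Agent.P182.H887.Obj

/-!
# The maximal rank theorem MT'

`N = (J, arm, Ω)` orthogonal-generic, `S` a versal linear object independent of `N`: if
`θ(T) ≤ θ(S)` for all `T ⊆ S` then `Ext(N, S) = 0`.
-/

namespace Vale.Agent.P182.H887

open Module Matrix Vale.Agent.P182.H533

variable {L : Type*} [Field L] {J ι κ : Type*} [Fintype J] [DecidableEq J] [DecidableEq ι]

/-- square-zero N1: there is no nonzero symmetric `C` with `C G_s C = 0`, for the matrix `Ω` -/
def N1sq (arm : J → ι) (ord : J → J → Prop) (Ω : Matrix J J L) : Prop :=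
  ∀ C : Matrix J J L, Cᵀ = C → (∀ l k, arm l = arm k → C l k = 0) →
    (∀ l k, arm l = arm k → ord l k → (C * Ω) l k = 0) →
    (∀ s, C * Gm arm Ω s * C = 0) → C = 0

/-- all first order deformations of the chains `F s` (each arm separately) and of `Ω` are induced
by derivations -/
def GLVersal {V : Type*} [AddCommGroup V] [Module L V] (F : ι → κ → Submodule L V)
    (Ω : Matrix J J L) : Prop :=
  ∀ (r : ι → End L V) (η : Matrix J J L), ηᵀ = -η →
    ∃ c : GConn L V, (∀ s i, ∀ v ∈ F s i, c.δ v - r s v ∈ F s i) ∧ ∀ l k, c.d (Ω l k) = η l k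

section der

variable {V : Type*} [AddCommGroup V] [Module L V]

omit [DecidableEq J] in
theorem GConn.δ_om (c : GConn L V) {Ω η : Matrix J J L} (hη : ∀ l k, c.d (Ω l k) = η l k)
    (x : J → V) (l : J) :
    c.δ (omM Ω x l) = omM η x l + omM Ω (fun k => c.δ (x k)) l := by
  rw [omM_apply, omM_apply, omM_apply, map_sum, ← Finset.sum_add_distrib]
  exact Finset.sum_congr rfl fun k _ => by rw [c.smul, hη]

variable {arm : J → ι}

omit [DecidableEq J] [DecidableEq ι] in
/-- the first order relation before pairing -/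
theorem der_id (c : GConn L V) {Ω η : Matrix J J L} (hη : ∀ l k, c.d (Ω l k) = η l k)
    (r : ι → End L V) (x : J → V) (l : J) :
    omM η x l + omM Ω (fun k => r (arm k) (x k)) l - r (arm l) (omM Ω x l) =
      (c.δ (omM Ω x l) - r (arm l) (omM Ω x l)) -
        omM Ω (fun k => c.δ (x k) - r (arm k) (x k)) l := by
  rw [c.δ_om hη]
  have h : omM Ω (fun k => c.δ (x k) - r (arm k) (x k)) l =
      omM Ω (fun k => c.δ (x k)) l - omM Ω (fun k => r (arm k) (x k)) l := by
    rw [omM_apply, omM_apply, omM_apply, ← Finset.sum_sub_distrib]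
    exact Finset.sum_congr rfl fun k _ => by rw [smul_sub]
  rw [h]
  abel

end der

section pair

variable {V : Type*} [AddCommGroup V] [Module L V] {arm : J → ι} {ord : J → J → Prop}
  {F : ι → κ → Submodule L V} {a b : J → κ} {Ω : Matrix J J L}

omit [DecidableEq J] [DecidableEq ι] in
/-- the first order relation -/
theorem pair_rel (hΩ : ∀ l k, Ω l k = - Ω k l) {x : J → V}
    (hx : x ∈ HomN Ω (fun l => F (arm l) (a l)) (fun l => F (arm l) (b l))) {y : J → Dual L V}
    (hy : y ∈ HomD Ω (fun l => F (arm l) (a l)) (fun l => F (arm l) (b l)))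
    {r : ι → End L V} {η : Matrix J J L} {c : GConn L V}
    (hc : ∀ s i, ∀ v ∈ F s i, c.δ v - r s v ∈ F s i) (hη : ∀ l k, c.d (Ω l k) = η l k) :
    ∑ l, y l (omM η x l) + ∑ l, y l (omM Ω (fun k => r (arm k) (x k)) l) -
      ∑ l, y l (r (arm l) (omM Ω x l)) = 0 := by
  rw [mem_HomN] at hx
  rw [mem_HomD] at hy
  rw [← Finset.sum_add_distrib, ← Finset.sum_sub_distrib]
  have h1 : ∀ l, y l (omM η x l) + y l (omM Ω (fun k => r (arm k) (x k)) l) -
      y l (r (arm l) (omM Ω x l)) = - y l (omM Ω (fun k => c.δ (x k) - r (arm k) (x k)) l) := by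
    intro l
    rw [← map_add, ← map_sub, der_id c hη r x l, map_sub, hy.1 l _ (hc _ _ _ (hx.2 l)), zero_sub]
  rw [Finset.sum_congr rfl fun l _ => h1 l, Finset.sum_neg_distrib, pairing_om hΩ, neg_neg]
  exact Finset.sum_eq_zero fun l _ => hy.2 l _ (hc _ _ _ (hx.1 l))

/-- **Vanishing of the pairing** (for all `x`, `y`, not only generic ones). -/
theorem pair_zero (hΩ : ∀ l k, Ω l k = - Ω k l) (hN : N1sq arm ord Ω)
    (hV : GLVersal F Ω)
    (hAB : ∀ l k, arm l = arm k → F (arm k) (a k) ≤ F (arm l) (b l))
    (hBB : ∀ l k, arm l = arm k → ord l k → F (arm k) (b k) ≤ F (arm l) (b l))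
    {x : J → V}
    (hx : x ∈ HomN Ω (fun l => F (arm l) (a l)) (fun l => F (arm l) (b l))) {y : J → Dual L V}
    (hy : y ∈ HomD Ω (fun l => F (arm l) (a l)) (fun l => F (arm l) (b l))) (l k : J) :
    y l (x k) = 0 := by
  have hx' := mem_HomN.mp hx
  have hy' := mem_HomD.mp hy
  have hCΩ : ∀ m k, (Matrix.of (fun l k => y l (x k)) * Ω) m k = - y m (omM Ω x k) := by
    intro m k
    rw [Matrix.mul_apply, omM_apply, map_sum, ← Finset.sum_neg_distrib]
    refine Finset.sum_congr rfl fun j _ => ?_
    rw [Matrix.of_apply, map_smul, smul_eq_mul, hΩ k j]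
    ring
  have hC := hN (Matrix.of fun l k => y l (x k)) ?_ ?_ ?_ ?_
  · have := congrFun (congrFun hC l) k
    simpa using this
  · -- symmetry
    ext m j
    rw [Matrix.transpose_apply, Matrix.of_apply, Matrix.of_apply]
    by_cases hmj : m = j
    · rw [hmj]
    obtain ⟨c, hc, hη⟩ := hV (fun _ => 0)
      (Matrix.of fun p q => if p = m ∧ q = j then 1 else if p = j ∧ q = m then -1 else 0) (by
        ext p q
        rw [Matrix.transpose_apply, Matrix.neg_apply, Matrix.of_apply, Matrix.of_apply]
        by_cases h1 : p = m ∧ q = j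
        · obtain ⟨rfl, rfl⟩ := h1
          have h2 : ¬ (q = p ∧ p = q) := fun h => hmj h.2
          simp [h2]
        · by_cases h2 : p = j ∧ q = m
          · obtain ⟨rfl, rfl⟩ := h2
            simp [hmj]
          · have h3 : ¬ (q = m ∧ p = j) := fun h => h2 ⟨h.2, h.1⟩
            have h4 : ¬ (q = j ∧ p = m) := fun h => h1 ⟨h.2, h.1⟩
            simp [h1, h2, h3, h4])
    have h := pair_rel hΩ hx hy hc hη
    simp only [LinearMap.zero_apply] at h
    have h0 : ∀ l, omM Ω (fun _ : J => (0 : V)) l = 0 := fun l => by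
      rw [omM_apply]; simp
    simp only [h0, map_zero, Finset.sum_const_zero, add_zero, sub_zero] at h
    rw [Finset.sum_eq_add m j hmj] at h
    · rw [omM_apply, omM_apply, Finset.sum_eq_single j, Finset.sum_eq_single m] at h
      · simp only [Matrix.of_apply, and_self, if_true, hmj, Ne.symm hmj,
          if_false, map_smul, smul_eq_mul] at h
        linear_combination -h
      · intro q _ hq
        simp [hq, Ne.symm hmj]
      · intro h; exact absurd (Finset.mem_univ _) h
      · intro q _ hq
        simp [hq, hmj]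
      · intro h; exact absurd (Finset.mem_univ _) h
    · rintro p _ ⟨h1, h2⟩
      rw [omM_apply]
      simp [h1, h2]
    · intro h; exact absurd (Finset.mem_univ _) h
    · intro h; exact absurd (Finset.mem_univ _) h
  · intro m j hmj
    exact hy'.1 m _ (hAB m j hmj (hx'.1 j))
  · intro m j hmj ho
    rw [hCΩ, neg_eq_zero]
    exact hy'.1 m _ (hBB m j hmj ho (hx'.2 j))
  · -- `C G_s C = 0`
    intro s
    ext m j
    obtain ⟨c, hc, hη⟩ := hV (fun s' => if s' = s then (y m).smulRight (x j) else 0) 0 (by simp)
    have h := pair_rel hΩ hx hy hc hη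
    have h0 : ∀ l, omM (0 : Matrix J J L) x l = 0 := fun l => by
      rw [omM_apply]; simp
    simp only [h0, map_zero, Finset.sum_const_zero, zero_add] at h
    rw [pairing_om hΩ] at h
    have e1 : ∀ l : J, omM Ω y l ((if arm l = s then (y m).smulRight (x j) else 0 : End L V) (x l)) =
        (if arm l = s then 1 else 0) * (y m (x l) * omM Ω y l (x j)) := by
      intro l
      split_ifs
      · rw [LinearMap.smulRight_apply, map_smul, smul_eq_mul, one_mul]
      · rw [LinearMap.zero_apply, map_zero, zero_mul]
    have e2 : ∀ l : J, y l ((if arm l = s then (y m).smulRight (x j) else 0 : End L V)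
        (omM Ω x l)) = (if arm l = s then 1 else 0) * (y m (omM Ω x l) * y l (x j)) := by
      intro l
      split_ifs
      · rw [LinearMap.smulRight_apply, map_smul, smul_eq_mul, one_mul]
      · rw [LinearMap.zero_apply, map_zero, zero_mul]
    simp only [e1, e2] at h
    have e3 : (Matrix.of (fun l k => y l (x k)) * Gm arm Ω s * Matrix.of (fun l k => y l (x k))) m j
        = ∑ l, (if arm l = s then 1 else 0) * (y m (x l) * omM Ω y l (x j)) +
          ∑ l, (if arm l = s then 1 else 0) * (y m (omM Ω x l) * y l (x j)) := by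
      rw [Gm, Matrix.mul_sub, Matrix.sub_mul, Matrix.sub_apply, ← Matrix.mul_assoc,
        ← Matrix.mul_assoc, Matrix.mul_assoc (_ * Em arm s) Ω, Matrix.mul_apply, Matrix.mul_apply,
        sub_eq_add_neg, ← Finset.sum_neg_distrib]
      congr 1
      · refine Finset.sum_congr rfl fun l _ => ?_
        rw [Em, Matrix.mul_diagonal, Matrix.of_apply, Matrix.mul_apply, om_dual_apply]
        simp only [Matrix.of_apply]
        ring
      · refine Finset.sum_congr rfl fun l _ => ?_
        rw [Em, Matrix.mul_diagonal, hCΩ, Matrix.of_apply]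
        ring
    rw [e3, Matrix.zero_apply]
    linear_combination -h

end pair

section main

omit [DecidableEq J] in
/-- theta of a quotient -/
theorem theta_quo {V : Type*} [AddCommGroup V] [Module L V] [FiniteDimensional L V]
    (A B : J → Submodule L V) (R : Submodule L V) (T' : Submodule L (V ⧸ R)) :
    theta (fun l => (A l).map R.mkQ) (fun l => (B l).map R.mkQ) T' =
      theta A B (T'.comap R.mkQ) - theta A B R := by
  have key : ∀ A : Submodule L V, (finrank L (A.map R.mkQ ⊓ T' : Submodule L (V ⧸ R)) : ℤ) =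
      finrank L (A ⊓ T'.comap R.mkQ : Submodule L V) - finrank L (A ⊓ R : Submodule L V) := by
    intro A
    have h1 := finrank_map_add R.mkQ (A ⊓ T'.comap R.mkQ)
    have h2 : (A ⊓ T'.comap R.mkQ).map R.mkQ = A.map R.mkQ ⊓ T' := by
      ext w
      constructor
      · rintro ⟨x, hx, rfl⟩
        exact ⟨⟨x, hx.1, rfl⟩, hx.2⟩
      · rintro ⟨⟨x, hx, rfl⟩, hw⟩
        exact ⟨x, ⟨hx, hw⟩, rfl⟩
    have h3 : (A ⊓ T'.comap R.mkQ ⊓ LinearMap.ker R.mkQ : Submodule L V) = A ⊓ R := by
      rw [Submodule.ker_mkQ]
      ext w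
      simp only [Submodule.mem_inf, Submodule.mem_comap]
      constructor
      · rintro ⟨⟨h, _⟩, h'⟩; exact ⟨h, h'⟩
      · rintro ⟨h, h'⟩
        exact ⟨⟨h, by rw [mkQ_eq_zero.mpr h']; exact Submodule.zero_mem _⟩, h'⟩
    rw [h2, h3] at h1
    omega
  have key2 : (finrank L T' : ℤ) = finrank L (T'.comap R.mkQ) - finrank L R := by
    have h := key ⊤
    rw [Submodule.map_top, Submodule.range_mkQ, top_inf_eq, top_inf_eq, top_inf_eq] at h
    exact h
  rw [theta, theta, theta, ← Finset.sum_sub_distrib]
  refine Finset.sum_congr rfl fun l _ => ?_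
  rw [key, key, key2]
  ring

/-- **MT'.** -/
theorem mt [Finite κ] {arm : J → ι} {ord : J → J → Prop} {Ω : Matrix J J L}
    (hΩ : ∀ l k, Ω l k = - Ω k l) (hN : N1sq arm ord Ω) {a b : J → κ} (n : ℕ) :
    ∀ {V : Type*} [AddCommGroup V] [Module L V] [FiniteDimensional L V]
      {F : ι → κ → Submodule L V}, finrank L V = n → GLVersal F Ω →
      (∀ s i j, F s i ≤ F s j ∨ F s j ≤ F s i) →
      (∀ l k, arm l = arm k → F (arm k) (a k) ≤ F (arm l) (b l)) →
      (∀ l k, arm l = arm k → ord l k → F (arm k) (b k) ≤ F (arm l) (b l)) →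
      (∀ T : Submodule L V, theta (fun l => F (arm l) (a l)) (fun l => F (arm l) (b l)) T ≤
        theta (fun l => F (arm l) (a l)) (fun l => F (arm l) (b l)) ⊤) →
      HomD Ω (fun l => F (arm l) (a l)) (fun l => F (arm l) (b l)) = ⊥ := by
  induction n using Nat.strong_induction_on with
  | _ n ih =>
  intro V _ _ _ F hn hV hch hAB hBB hT
  set A : J → Submodule L V := fun l => F (arm l) (a l) with hA
  set B : J → Submodule L V := fun l => F (arm l) (b l) with hB
  -- the span of all images
  set R : Submodule L V := Submodule.span L {v | ∃ x ∈ HomN Ω A B, ∃ l, v = x l} with hR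
  have hxR : ∀ x ∈ HomN Ω A B, ∀ l, x l ∈ R := fun x hx l => Submodule.subset_span ⟨x, hx, l, rfl⟩
  have hyR : ∀ y ∈ HomD Ω A B, ∀ l, ∀ v ∈ R, y l v = 0 := by
    intro y hy l v hv
    induction hv using Submodule.span_induction with
    | mem v hv =>
      obtain ⟨x, hx, k, rfl⟩ := hv
      exact pair_zero hΩ hN hV hAB hBB hx hy l k
    | zero => exact map_zero _
    | add u v _ _ hu hv => rw [map_add, hu, hv, add_zero]
    | smul c u _ hu => rw [map_smul, hu, smul_zero]
  by_cases hR0 : R = ⊥
  · -- no homomorphisms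
    have h1 : HomN Ω A B = ⊥ := by
      rw [Submodule.eq_bot_iff]
      intro x hx
      funext l
      have := hxR x hx l
      rwa [hR0, Submodule.mem_bot] at this
    have h2 := hom_sub_ext hΩ A B
    rw [h1, finrank_bot] at h2
    have h3 := hT ⊥
    rw [theta_bot, ← h2] at h3
    have h4 : finrank L (HomD Ω A B) = 0 := by omega
    exact Submodule.finrank_eq_zero.mp h4
  · obtain ⟨g, hg⟩ := exists_retr R
    obtain ⟨σ, hσ⟩ := exists_section R
    -- the quotient is versal
    have hQ : GLVersal (fun s i => (F s i).map R.mkQ) Ω := by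
      intro rb η hη
      obtain ⟨c1, hc1, hη1⟩ := hV (fun _ => 0) η hη
      let c0 : GConn L R := c1.res R g hg
      have hcs : ∀ s, ∃ c' : GConn L R, c'.d = c0.d ∧
          ∀ i, ∀ v ∈ (F s i).comap R.subtype, c'.δ v ∈ (F s i).comap R.subtype := fun s =>
        c0.adapt (fun i => (F s i).comap R.subtype) fun i j =>
          (hch s i j).imp (fun h => Submodule.comap_mono h) fun h => Submodule.comap_mono h
      choose cs hcsd hcsF using hcs
      let r' : ι → End L R := fun s => c0.diff (cs s) (hcsd s).symm
      let r : ι → End L V := fun s => R.subtype ∘ₗ r' s ∘ₗ g + σ ∘ₗ rb s ∘ₗ R.mkQ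
      have hr1 : ∀ s, ∀ v : R, r s v = r' s v := by
        intro s v
        show R.subtype (r' s (g v)) + σ (rb s (R.mkQ v)) = r' s v
        rw [hg, mkQ_eq_zero.mpr v.2, map_zero, map_zero, add_zero]
        rfl
      have hr2 : ∀ s v, R.mkQ (r s v) = rb s (R.mkQ v) := by
        intro s v
        show R.mkQ (R.subtype (r' s (g v)) + σ (rb s (R.mkQ v))) = _
        rw [map_add, hσ, Submodule.subtype_apply, mkQ_eq_zero.mpr (r' s (g v)).2, zero_add]
      obtain ⟨c, hc, hηc⟩ := hV r η hη
      -- `c` preserves `R`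
      have hcR : ∀ x ∈ HomN Ω A B, ∀ l, c.δ (x l) ∈ R := by
        intro x hx l
        have hx' := mem_HomN.mp hx
        have hu : ∀ l, omM Ω x l ∈ R := fun l => by
          rw [omM_apply]
          exact Submodule.sum_mem _ fun k _ => R.smul_mem _ (hxR x hx k)
        let xR : J → R := fun l => ⟨x l, hxR x hx l⟩
        let x' : J → R := fun l => (cs (arm l)).δ (xR l)
        have hx'A : ∀ l, (x' l : V) ∈ A l := fun l => hcsF (arm l) (a l) (xR l) (hx'.1 l)
        have huR : ∀ l, omM Ω xR l = ⟨omM Ω x l, hu l⟩ := by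
          intro l
          apply Subtype.ext
          show ((omM Ω xR l : R) : V) = omM Ω x l
          rw [omM_apply, omM_apply, ← R.subtype_apply, map_sum]
          exact Finset.sum_congr rfl fun k _ => by rw [map_smul]; rfl
        -- relation in `R`
        have hrel : ∀ l, omM η xR l + omM Ω (fun k => r' (arm k) (xR k)) l -
            r' (arm l) (omM Ω xR l) = (cs (arm l)).δ (omM Ω xR l) - omM Ω x' l := by
          intro l
          have h1 := der_id (arm := arm) c0 (Ω := Ω) (η := η) hη1 r' xR l
          rw [h1]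
          have h2 : ∀ s (v : R), c0.δ v - r' s v = (cs s).δ v := by
            intro s v
            show c0.δ v - (c0.δ v - (cs s).δ v) = _
            rw [sub_sub_cancel]
          simp only [h2]
          rfl
        have hcoe : ∀ (M : Matrix J J L) (z : J → R) (l : J),
            ((omM M z l : R) : V) = omM M (fun k => (z k : V)) l := by
          intro M z l
          rw [omM_apply, omM_apply, ← R.subtype_apply, map_sum]
          exact Finset.sum_congr rfl fun k _ => by rw [map_smul]; rfl
        -- the corrected element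
        let z : J → V := fun l => (c.δ (x l) - r (arm l) (x l)) - x' l
        have hz : z ∈ HomN Ω A B := by
          rw [mem_HomN]
          refine ⟨fun l => (A l).sub_mem (hc _ _ _ (hx'.1 l)) (hx'A l), fun l => ?_⟩
          have h1 := der_id (arm := arm) c (Ω := Ω) (η := η) hηc r x l
          have h2 : omM Ω z l = omM Ω (fun k => c.δ (x k) - r (arm k) (x k)) l -
              omM Ω (fun k => (x' k : V)) l := by
            rw [omM_apply, omM_apply, omM_apply, ← Finset.sum_sub_distrib]
            exact Finset.sum_congr rfl fun k _ => by rw [smul_sub]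
          have h3 := congrArg (fun v : R => (v : V)) (hrel l)
          simp only [Submodule.coe_sub, Submodule.coe_add, hcoe] at h3
          have h4 : omM Ω (fun k => r (arm k) (x k)) l =
              omM Ω (fun k => ((r' (arm k) (xR k) : R) : V)) l := by
            rw [omM_apply, omM_apply]
            exact Finset.sum_congr rfl fun k _ => by rw [hr1 (arm k) (xR k)]
          have h5 : r (arm l) (omM Ω x l) = ((r' (arm l) (omM Ω xR l) : R) : V) := by
            rw [huR, ← hr1]
          have h6 : omM Ω z l = (c.δ (omM Ω x l) - r (arm l) (omM Ω x l)) -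
              (((cs (arm l)).δ (omM Ω xR l) : R) : V) := by
            rw [h2]
            rw [h4, h5] at h1
            have h7 : omM η (fun k => ((xR k : R) : V)) l = omM η x l := rfl
            rw [h7] at h3
            rw [h5]
            have h8 := h1.symm.trans h3
            rw [sub_eq_sub_iff_add_eq_add] at h8 ⊢
            rw [h8, add_comm]
          rw [h6]
          refine (B l).sub_mem (hc _ _ _ (hx'.2 l)) ?_
          exact hcsF (arm l) (b l) _ (by
            rw [huR]
            exact hx'.2 l)
        have h1 := hxR z hz l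
        have h2 : c.δ (x l) = z l + x' l + r (arm l) (x l) := by
          show c.δ (x l) = (c.δ (x l) - r (arm l) (x l)) - x' l + x' l + r (arm l) (x l)
          abel
        rw [h2]
        refine R.add_mem (R.add_mem h1 (x' l).2) ?_
        rw [show x l = ((xR l : R) : V) from rfl, hr1]
        exact (r' (arm l) (xR l)).2
      have hcR' : ∀ v ∈ R, c.δ v ∈ R := by
        intro v hv
        induction hv using Submodule.span_induction with
        | mem v hv =>
          obtain ⟨x, hx, k, rfl⟩ := hv
          exact hcR x hx k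
        | zero => rw [map_zero]; exact R.zero_mem
        | add u v _ _ hu hv => rw [map_add]; exact R.add_mem hu hv
        | smul e u hu' hu => rw [c.smul]; exact R.add_mem (R.smul_mem _ hu') (R.smul_mem _ hu)
      refine ⟨c.quo R σ hσ, ?_, hηc⟩
      rintro s i _ ⟨v, hv, rfl⟩
      rw [GConn.quo_mkQ c hσ hcR', ← hr2, ← map_sub]
      exact Submodule.mem_map_of_mem (hc s i v hv)
    have hlt : finrank L (V ⧸ R) < n := by
      have h1 := Submodule.finrank_quotient_add_finrank R
      have h2 : 0 < finrank L R := by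
        rw [Module.finrank_pos_iff]
        exact Submodule.nontrivial_iff_ne_bot.mpr hR0
      omega
    have h0 := ih _ hlt (V := V ⧸ R) (F := fun s i => (F s i).map R.mkQ) rfl hQ
      (fun s i j => (hch s i j).imp (fun h => Submodule.map_mono h) fun h => Submodule.map_mono h)
      (fun l k h => Submodule.map_mono (hAB l k h))
      (fun l k h h' => Submodule.map_mono (hBB l k h h')) (by
        intro T'
        rw [theta_quo A B R T', theta_quo A B R ⊤, Submodule.comap_top]
        have := hT (T'.comap R.mkQ)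
        linarith)
    rw [Submodule.eq_bot_iff]
    intro y hy
    have hy' := mem_HomD.mp hy
    have hyk : ∀ l, R ≤ LinearMap.ker (y l) := fun l v hv => hyR y hy l v hv
    let yb : J → Dual L (V ⧸ R) := fun l => R.liftQ (y l) (hyk l)
    have hyb : ∀ l v, yb l (R.mkQ v) = y l v := fun l v => Submodule.liftQ_apply _ _ _
    have h1 : yb ∈ HomD Ω (fun l => (A l).map R.mkQ) fun l => (B l).map R.mkQ := by
      rw [mem_HomD]
      constructor
      · rintro l _ ⟨v, hv, rfl⟩
        rw [hyb]
        exact hy'.1 l v hv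
      · rintro l _ ⟨v, hv, rfl⟩
        rw [om_dual_apply]
        simp only [hyb]
        rw [← om_dual_apply]
        exact hy'.2 l v hv
    rw [h0, Submodule.mem_bot] at h1
    funext l
    ext v
    rw [← hyb, h1]
    rfl

/-- **MT'**, packaged. -/
theorem mt' [Finite κ] {arm : J → ι} {ord : J → J → Prop} {Ω : Matrix J J L}
    (hΩ : ∀ l k, Ω l k = - Ω k l) (hN : N1sq arm ord Ω) {a b : J → κ}
    {V : Type*} [AddCommGroup V] [Module L V] [FiniteDimensional L V]
    {F : ι → κ → Submodule L V} (hV : GLVersal F Ω)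
    (hch : ∀ s i j, F s i ≤ F s j ∨ F s j ≤ F s i)
    (hAB : ∀ l k, arm l = arm k → F (arm k) (a k) ≤ F (arm l) (b l))
    (hBB : ∀ l k, arm l = arm k → ord l k → F (arm k) (b k) ≤ F (arm l) (b l))
    (hT : ∀ T : Submodule L V, theta (fun l => F (arm l) (a l)) (fun l => F (arm l) (b l)) T ≤
        theta (fun l => F (arm l) (a l)) (fun l => F (arm l) (b l)) ⊤) :
    HomD Ω (fun l => F (arm l) (a l)) (fun l => F (arm l) (b l)) = ⊥ ∧
    (finrank L (HomN Ω (fun l => F (arm l) (a l)) (fun l => F (arm l) (b l))) : ℤ) =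
      theta (fun l => F (arm l) (a l)) (fun l => F (arm l) (b l)) ⊤ := by
  have h := mt hΩ hN (a := a) (b := b) _ rfl hV hch hAB hBB hT
  refine ⟨h, ?_⟩
  have h2 := hom_sub_ext hΩ (fun l => F (arm l) (a l)) (fun l => F (arm l) (b l))
  rw [h, finrank_bot] at h2
  simpa using h2

end main

end Vale.Agent.P182.H887
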