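import Vale.Agent.P182.H534.C0b
import Vale.Agent.P182.H563.Base
import Vale.Agent.P182.H58.Glue7I

/-!
# Parity of the correction term of the two-section flow

`BB` at the base `τ = x t + y t'`, applied to `τ l`, is `(ui uj) A - (ui³ uj) B + (ui uj³) C`
applied to `t l`; it is odd in `ui = x + y d_i`.
-/

namespace Vale.Agent.P182.H887.ParZ

open Module Matrix Vale.Agent.P182.H533 Vale.Agent.P182.B1 Vale.Agent.P182.H922
  Vale.Agent.P182.H578 Vale.Agent.P182.H588 Vale.Agent.P182.H181 Vale.Agent.P182.H983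
  Vale.Agent.P182.H534

section defs

variable {L V J : Type*} [Field L] [AddCommGroup V] [Module L V] [Fintype J] [DecidableEq J]

/-- `r G_b t^*` -/
noncomputable def Qt (𝒟 : Cfg L V J) (t r : J → V) (b : Fin 3) : End L V :=
  opr 𝒟.q (Tt L r) (Gm 𝒟.arm 𝒟.Ω b) (Tt L t)

/-- `∑ r G_b t^* ξ_b` -/
noncomputable def Th (𝒟 : Cfg L V J) (t r : J → V) (ξ : Fin 3 → End L V) : End L V :=
  ∑ b, Qt 𝒟 t r b * ξ b

/-- the correction as a polynomial in the two scalars -/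
noncomputable def ZZ (𝒟 : Cfg L V J) (t r : J → V) (T Td ξ ξ' ξd ξd' : Fin 3 → End L V)
    (ui uj : L) (a : Fin 3) : End L V :=
  (ui * uj) • (Th 𝒟 t r ξ * T a - Th 𝒟 t r ξ' * Td a +
    ∑ c, (Qt 𝒟 t r c * T c * ξd' a - Qt 𝒟 t r c * Td c * ξd a)) -
  (ui ^ 3 * uj) • (∑ c, Th 𝒟 t r ξ * Res 𝒟 t c * T c * ξd' a) +
  (ui * uj ^ 3) • (∑ c, Th 𝒟 t r ξ' * Res 𝒟 t c * Td c * ξd a)

theorem ZZ_neg (𝒟 : Cfg L V J) (t r : J → V) (T Td ξ ξ' ξd ξd' : Fin 3 → End L V)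
    (ui uj : L) (a : Fin 3) :
    ZZ 𝒟 t r T Td ξ ξ' ξd ξd' (-ui) uj a = -ZZ 𝒟 t r T Td ξ ξ' ξd ξd' ui uj a := by
  unfold ZZ
  module

end defs

section main

universe u v w

variable {L : Type u} {V : Type v} {J : Type w} [Field L] [AddCommGroup V] [Module L V]
  [Fintype J] [DecidableEq J] {𝒟 : Cfg L V J} {u : J → L} {t t' : J → V} {W I : Submodule L V}
  {k : ℕ} {U : Fin k → Submodule L V} {d : Fin k → L} {p : Fin 3 → ℕ}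

omit [Fintype J] [DecidableEq J] in
/-- a tensor sees a vector only through its second factor -/
theorem ten_scale {q : V →ₗ[L] V →ₗ[L] L} (hq : IsForm q) {X Y : Submodule L V} {A : End L V}
    (hA : A ∈ Ten q X Y) {c : L} {v v' : V} (h : ∀ w ∈ Y, q w v' = c * q w v) :
    A v' = c • A v := by
  rw [← map_smul, ← sub_eq_zero, ← map_sub]
  refine hA.2 _ fun w hw => ?_
  rw [map_sub, map_smul, LinearMap.sub_apply, LinearMap.smul_apply, hq.symm v' w, hq.symm v w,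
    h w hw, smul_eq_mul, sub_self]

omit [Fintype J] [DecidableEq J] in
/-- the same after the adjoint of an operator preserving the second factor -/
theorem ten_scale' {q : V →ₗ[L] V →ₗ[L] L} (hq : IsForm q) {X Y : Submodule L V} {A η ηd : End L V}
    (hA : A ∈ Ten q X Y) (hη : ∀ w ∈ Y, η w ∈ Y) (hηd : ∀ v w, q (ηd v) w = q v (η w))
    {c : L} {v v' : V} (h : ∀ w ∈ Y, q w v' = c * q w v) :
    A (ηd v') = c • A (ηd v) := by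
  refine ten_scale hq hA fun w hw => ?_
  rw [hq.symm w, hq.symm w, hηd, hηd, hq.symm v', hq.symm v]
  exact h _ (hη w hw)

/-- **The correction in terms of `t`.** -/
theorem BB_eq (hG : 𝒟.Good) (hK : KRel 𝒟.arm 𝒟.q 𝒟.Ω (Tt L '' (Ku 𝒟 u : Set (J → V))))
    (B : H983.Blk 𝒟 u t t' W I U d p) {i j : Fin k} {x y : L}
    {T Td ξ ξ' ξd ξd' : Fin 3 → End L V}
    (hT : ∀ a, T a ∈ Ten 𝒟.q (U i) (U j)) (hTd : ∀ a, Td a ∈ Ten 𝒟.q (U j) (U i))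
    (hξ : ∀ a, ∀ w ∈ U i, ξ a w ∈ U i) (hξ' : ∀ a, ∀ w ∈ U j, ξ' a w ∈ U j)
    (hξd : ∀ a v w, 𝒟.q (ξd a v) w = 𝒟.q v (ξ a w))
    (hξd' : ∀ a v w, 𝒟.q (ξd' a v) w = 𝒟.q v (ξ' a w)) (r : J → V) (a : Fin 3) {v v' : V}
    (hi : ∀ w ∈ U i, 𝒟.q w v' = (x + y * d i) * 𝒟.q w v)
    (hj : ∀ w ∈ U j, 𝒟.q w v' = (x + y * d j) * 𝒟.q w v) :
    BB 𝒟 (H983.tm t t' x y) r T Td ξ ξ' ξd ξd' a v' =
      ZZ 𝒟 t r T Td ξ ξ' ξd ξd' (x + y * d i) (x + y * d j) a v := by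
  have hq := hG.form
  have hSU : ∀ m a, ∀ w ∈ U m, Res 𝒟 t a w ∈ U m := fun m a w hw => H563.U_stab B m a hw
  have hQ : ∀ m b, ∀ w ∈ U m, opr 𝒟.q (Tt L r) (Gm 𝒟.arm 𝒟.Ω b) (Tt L (H983.tm t t' x y)) w =
      (x + y * d m) • Qt 𝒟 t r b w := fun m b w hw => H563.opr_tm hG B x y r m b hw
  have hth : ∀ m (η : Fin 3 → End L V), (∀ b, ∀ w ∈ U m, η b w ∈ U m) → ∀ w ∈ U m,
      (∑ b, opr 𝒟.q (Tt L r) (Gm 𝒟.arm 𝒟.Ω b) (Tt L (H983.tm t t' x y)) * η b) w =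
      (x + y * d m) • Th 𝒟 t r η w := by
    intro m η hη w hw
    unfold Th
    rw [LinearMap.sum_apply, LinearMap.sum_apply, Finset.smul_sum]
    exact Finset.sum_congr rfl fun b _ => hQ m b _ (hη b w hw)
  have hF : ∀ m (η : Fin 3 → End L V), (∀ b, ∀ w ∈ U m, η b w ∈ U m) → ∀ c, ∀ w ∈ U m,
      (opr 𝒟.q (Tt L r) (Gm 𝒟.arm 𝒟.Ω c) (Tt L (H983.tm t t' x y)) -
        (∑ b, opr 𝒟.q (Tt L r) (Gm 𝒟.arm 𝒟.Ω b) (Tt L (H983.tm t t' x y)) * η b) *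
          Res 𝒟 (H983.tm t t' x y) c) w =
      (x + y * d m) • Qt 𝒟 t r c w - (x + y * d m) ^ 3 • Th 𝒟 t r η (Res 𝒟 t c w) := by
    intro m η hη c w hw
    rw [LinearMap.sub_apply, Module.End.mul_apply, hQ m c w hw, H563.Res_tm hG hK B x y m c hw,
      map_smul, hth m η hη _ (hSU m c w hw), smul_smul, ← pow_succ]
  have e1 : T a v' = (x + y * d j) • T a v := ten_scale hq (hT a) hj
  have e2 : Td a v' = (x + y * d i) • Td a v := ten_scale hq (hTd a) hi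
  have e3 : ∀ c, T c (ξd' a v') = (x + y * d j) • T c (ξd' a v) := fun c =>
    ten_scale' hq (hT c) (hξ' a) (hξd' a) hj
  have e4 : ∀ c, Td c (ξd a v') = (x + y * d i) • Td c (ξd a v) := fun c =>
    ten_scale' hq (hTd c) (hξ a) (hξd a) hi
  have l1 : BB 𝒟 (H983.tm t t' x y) r T Td ξ ξ' ξd ξd' a v' =
      (x + y * d i) • Th 𝒟 t r ξ (T a v') - (x + y * d j) • Th 𝒟 t r ξ' (Td a v') +
      ∑ c, (((x + y * d i) • Qt 𝒟 t r c (T c (ξd' a v')) -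
          (x + y * d i) ^ 3 • Th 𝒟 t r ξ (Res 𝒟 t c (T c (ξd' a v')))) -
        ((x + y * d j) • Qt 𝒟 t r c (Td c (ξd a v')) -
          (x + y * d j) ^ 3 • Th 𝒟 t r ξ' (Res 𝒟 t c (Td c (ξd a v'))))) := by
    unfold BB
    rw [LinearMap.add_apply, LinearMap.sub_apply, LinearMap.sum_apply, Module.End.mul_apply,
      Module.End.mul_apply, hth i ξ hξ _ ((hT a).1 v'), hth j ξ' hξ' _ ((hTd a).1 v')]
    congr 1
    refine Finset.sum_congr rfl fun c _ => ?_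
    rw [LinearMap.sub_apply, Module.End.mul_apply, Module.End.mul_apply, Module.End.mul_apply,
      Module.End.mul_apply, hF i ξ hξ c _ ((hT c).1 _), hF j ξ' hξ' c _ ((hTd c).1 _)]
  rw [l1, e1, e2]
  unfold ZZ
  simp only [LinearMap.add_apply, LinearMap.sub_apply, LinearMap.smul_apply, LinearMap.sum_apply,
    Module.End.mul_apply]
  have l2 : ∀ c, (((x + y * d i) • Qt 𝒟 t r c (T c (ξd' a v')) -
          (x + y * d i) ^ 3 • Th 𝒟 t r ξ (Res 𝒟 t c (T c (ξd' a v')))) -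
        ((x + y * d j) • Qt 𝒟 t r c (Td c (ξd a v')) -
          (x + y * d j) ^ 3 • Th 𝒟 t r ξ' (Res 𝒟 t c (Td c (ξd a v'))))) =
      ((x + y * d i) * (x + y * d j)) • (Qt 𝒟 t r c (T c (ξd' a v)) -
        Qt 𝒟 t r c (Td c (ξd a v))) -
      ((x + y * d i) ^ 3 * (x + y * d j)) • Th 𝒟 t r ξ (Res 𝒟 t c (T c (ξd' a v))) +
      ((x + y * d i) * (x + y * d j) ^ 3) • Th 𝒟 t r ξ' (Res 𝒟 t c (Td c (ξd a v))) := by
    intro c
    rw [e3, e4]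
    simp only [map_smul]
    module
  rw [Finset.sum_congr rfl fun c _ => l2 c, Finset.sum_add_distrib, Finset.sum_sub_distrib,
    ← Finset.smul_sum, ← Finset.smul_sum, ← Finset.smul_sum]
  simp only [map_smul]
  module

/-- `BB` at the families `tm` and `om tm` -/
theorem BB_tm (hG : 𝒟.Good) (hK : KRel 𝒟.arm 𝒟.q 𝒟.Ω (Tt L '' (Ku 𝒟 u : Set (J → V))))
    (B : H983.Blk 𝒟 u t t' W I U d p) {i j : Fin k} (x y : L)
    {T Td ξ ξ' ξd ξd' : Fin 3 → End L V}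
    (hT : ∀ a, T a ∈ Ten 𝒟.q (U i) (U j)) (hTd : ∀ a, Td a ∈ Ten 𝒟.q (U j) (U i))
    (hξ : ∀ a, ∀ w ∈ U i, ξ a w ∈ U i) (hξ' : ∀ a, ∀ w ∈ U j, ξ' a w ∈ U j)
    (hξd : ∀ a v w, 𝒟.q (ξd a v) w = 𝒟.q v (ξ a w))
    (hξd' : ∀ a v w, 𝒟.q (ξd' a v) w = 𝒟.q v (ξ' a w)) (r : J → V) (a : Fin 3) (l : J) :
    BB 𝒟 (H983.tm t t' x y) r T Td ξ ξ' ξd ξd' a (H983.tm t t' x y l) =
      ZZ 𝒟 t r T Td ξ ξ' ξd ξd' (x + y * d i) (x + y * d j) a (t l) ∧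
    BB 𝒟 (H983.tm t t' x y) r T Td ξ ξ' ξd ξd' a (𝒟.om (H983.tm t t' x y) l) =
      ZZ 𝒟 t r T Td ξ ξ' ξd ξd' (x + y * d i) (x + y * d j) a (𝒟.om t l) := by
  have h : ∀ m, ∀ w ∈ U m, ∀ z : J ⊕ J, 𝒟.q w (H534.ext 𝒟 (H983.tm t t' x y) z) =
      (x + y * d m) * 𝒟.q w (H534.ext 𝒟 t z) := fun m w hw z =>
    q_ext (fun l => q_tm B x y m hw hG.form l) z
  exact ⟨BB_eq hG hK B hT hTd hξ hξ' hξd hξd' r a (fun w hw => h i w hw (Sum.inl l))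
      (fun w hw => h j w hw (Sum.inl l)),
    BB_eq hG hK B hT hTd hξ hξ' hξd hξd' r a (fun w hw => h i w hw (Sum.inr l))
      (fun w hw => h j w hw (Sum.inr l))⟩

/-- **Parity** (the field `par` of `Two`). -/
theorem par (hG : 𝒟.Good) (hK : KRel 𝒟.arm 𝒟.q 𝒟.Ω (Tt L '' (Ku 𝒟 u : Set (J → V))))
    (B : H983.Blk 𝒟 u t t' W I U d p) {i j : Fin k} {x y x' y' : L}
    (hi' : x' + y' * d i = -(x + y * d i)) (hj' : x' + y' * d j = x + y * d j)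
    {T Td ξ ξ' ξd ξd' : Fin 3 → End L V}
    (hT : ∀ a, T a ∈ Ten 𝒟.q (U i) (U j)) (hTd : ∀ a, Td a ∈ Ten 𝒟.q (U j) (U i))
    (hξ : ∀ a, ∀ w ∈ U i, ξ a w ∈ U i) (hξ' : ∀ a, ∀ w ∈ U j, ξ' a w ∈ U j)
    (hξd : ∀ a v w, 𝒟.q (ξd a v) w = 𝒟.q v (ξ a w))
    (hξd' : ∀ a v w, 𝒟.q (ξd' a v) w = 𝒟.q v (ξ' a w)) (r : J → V) (a : Fin 3) (l : J) :
    BB 𝒟 (H983.tm t t' x' y') r T Td ξ ξ' ξd ξd' a (H983.tm t t' x' y' l) =
      -BB 𝒟 (H983.tm t t' x y) r T Td ξ ξ' ξd ξd' a (H983.tm t t' x y l) ∧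
    BB 𝒟 (H983.tm t t' x' y') r T Td ξ ξ' ξd ξd' a (𝒟.om (H983.tm t t' x' y') l) =
      -BB 𝒟 (H983.tm t t' x y) r T Td ξ ξ' ξd ξd' a (𝒟.om (H983.tm t t' x y) l) := by
  have h1 := BB_tm hG hK B x y hT hTd hξ hξ' hξd hξd' r a l
  have h2 := BB_tm hG hK B x' y' hT hTd hξ hξ' hξd hξd' r a l
  rw [h1.1, h1.2, h2.1, h2.2, hi', hj', ZZ_neg]
  exact ⟨rfl, rfl⟩

/-- **The correction modulo `I ⊗ W`** (the input `hZ` of `Two.second`). -/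
theorem hZ (hG : 𝒟.Good) (hK : KRel 𝒟.arm 𝒟.q 𝒟.Ω (Tt L '' (Ku 𝒟 u : Set (J → V))))
    (B : H983.Blk 𝒟 u t t' W I U d p) {i j : Fin k} {x y : L}
    (hi : x + y * d i ≠ 0) (hj : x + y * d j ≠ 0)
    {T Td ξ ξ' ξd ξd' : Fin 3 → End L V}
    (hT : ∀ a, T a ∈ Ten 𝒟.q (U i) (U j)) (hTd : ∀ a, Td a ∈ Ten 𝒟.q (U j) (U i))
    (hξ : ∀ a, ∀ w ∈ U i, ξ a w ∈ U i) (hξ' : ∀ a, ∀ w ∈ U j, ξ' a w ∈ U j)
    (hξd : ∀ a v w, 𝒟.q (ξd a v) w = 𝒟.q v (ξ a w))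
    (hξd' : ∀ a v w, 𝒟.q (ξd' a v) w = 𝒟.q v (ξ' a w))
    (hs : ∀ w ∈ U i, ∑ b, Res 𝒟 (H983.tm t t' x y) b (ξ b w) = w)
    (hs' : ∀ w ∈ U j, ∑ b, Res 𝒟 (H983.tm t t' x y) b (ξ' b w) = w) :
    ∀ r ∈ Uu V u, (∃ Γ, RelG 𝒟 W I t Γ r) → ∃ (Z : Fin 3 → End L V) (c c' : L),
      (∀ a, Z a - (c • T a - c' • Td a) ∈ H983.Ten 𝒟.q I W) ∧ ∀ a l,
      BB 𝒟 (H983.tm t t' x y) r T Td ξ ξ' ξd ξd' a (H983.tm t t' x y l) = Z a (t l) ∧
      BB 𝒟 (H983.tm t t' x y) r T Td ξ ξ' ξd ξd' a (𝒟.om (H983.tm t t' x y) l) =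
        Z a (𝒟.om t l) := by
  rintro r hr ⟨Γ, hΓ⟩
  obtain ⟨κ, hκ⟩ := B.scal Γ hΓ.mapW hΓ.mapI hΓ.sa hΓ.comm
  set ui := x + y * d i with hui
  set uj := x + y * d j with huj
  have hSU : ∀ m a, ∀ w ∈ U m, Res 𝒟 t a w ∈ U m := fun m a w hw => H563.U_stab B m a hw
  have hSI : ∀ a, ∀ w ∈ I, Res 𝒟 t a w ∈ I := fun a w hw => H58.Glue7.res_mem_I hG hK B hw a
  have hUW : ∀ m, U m ≤ W := H563.U_le B
  -- `r G_b t^* = κ S_b` modulo `I`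
  have hQ : ∀ m b, ∀ w ∈ U m, Qt 𝒟 t r b w - κ m • Res 𝒟 t b w ∈ I := by
    intro m b w hw
    have h1 := hΓ.two b w (hUW m hw)
    have h2 := hSI b _ (hκ m w hw)
    rw [map_sub, map_smul] at h2
    have h3 := I.add_mem h1 h2
    rwa [sub_add_sub_cancel] at h3
  have hTh : ∀ m (η : Fin 3 → End L V) (c : L), c ≠ 0 → (x + y * d m = c) →
      (∀ b, ∀ w ∈ U m, η b w ∈ U m) →
      (∀ w ∈ U m, ∑ b, Res 𝒟 (H983.tm t t' x y) b (η b w) = w) → ∀ w ∈ U m,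
      Th 𝒟 t r η w - (κ m / c ^ 2) • w ∈ I := by
    intro m η c hc hcm hη hsec w hw
    have h1 : (κ m / c ^ 2) • w = ∑ b, κ m • Res 𝒟 t b (η b w) := by
      conv_lhs => rw [← hsec w hw]
      rw [Finset.smul_sum]
      refine Finset.sum_congr rfl fun b _ => ?_
      rw [H563.Res_tm hG hK B x y m b (hη b w hw), hcm, smul_smul,
        div_mul_cancel₀ _ (pow_ne_zero 2 hc)]
    rw [h1]
    unfold Th
    rw [LinearMap.sum_apply, ← Finset.sum_sub_distrib]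
    exact I.sum_mem fun b _ => hQ m b _ (hη b w hw)
  have hF : ∀ m (η : Fin 3 → End L V) (c : L), c ≠ 0 → (x + y * d m = c) →
      (∀ b, ∀ w ∈ U m, η b w ∈ U m) →
      (∀ w ∈ U m, ∑ b, Res 𝒟 (H983.tm t t' x y) b (η b w) = w) → ∀ s, ∀ w ∈ U m,
      Qt 𝒟 t r s w - c ^ 2 • Th 𝒟 t r η (Res 𝒟 t s w) ∈ I := by
    intro m η c hc hcm hη hsec s w hw
    have h1 := hQ m s w hw
    have h2 := I.smul_mem (c ^ 2) (hTh m η c hc hcm hη hsec _ (hSU m s w hw))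
    rw [smul_sub, smul_smul, mul_div_cancel₀ _ (pow_ne_zero 2 hc)] at h2
    have h3 := I.sub_mem h1 h2
    have e : Qt 𝒟 t r s w - κ m • Res 𝒟 t s w -
        (c ^ 2 • Th 𝒟 t r η (Res 𝒟 t s w) - κ m • Res 𝒟 t s w) =
        Qt 𝒟 t r s w - c ^ 2 • Th 𝒟 t r η (Res 𝒟 t s w) := by abel
    rwa [e] at h3
  refine ⟨ZZ 𝒟 t r T Td ξ ξ' ξd ξd' ui uj, ui * uj * (κ i / ui ^ 2), ui * uj * (κ j / uj ^ 2),
    fun a => ⟨fun v => ?_, fun v hv => ?_⟩, fun a l => BB_tm hG hK B x y hT hTd hξ hξ' hξd hξd' r a l⟩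
  · -- the range
    have e : (ZZ 𝒟 t r T Td ξ ξ' ξd ξd' ui uj a -
        ((ui * uj * (κ i / ui ^ 2)) • T a - (ui * uj * (κ j / uj ^ 2)) • Td a)) v =
        (ui * uj) • (Th 𝒟 t r ξ (T a v) - (κ i / ui ^ 2) • T a v) -
        (ui * uj) • (Th 𝒟 t r ξ' (Td a v) - (κ j / uj ^ 2) • Td a v) +
        ((ui * uj) • ∑ c, (Qt 𝒟 t r c (T c (ξd' a v)) -
          ui ^ 2 • Th 𝒟 t r ξ (Res 𝒟 t c (T c (ξd' a v)))) -
        (ui * uj) • ∑ c, (Qt 𝒟 t r c (Td c (ξd a v)) -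
          uj ^ 2 • Th 𝒟 t r ξ' (Res 𝒟 t c (Td c (ξd a v))))) := by
      unfold ZZ
      simp only [LinearMap.add_apply, LinearMap.sub_apply, LinearMap.smul_apply,
        LinearMap.sum_apply, Module.End.mul_apply]
      rw [Finset.sum_sub_distrib, Finset.sum_sub_distrib, Finset.sum_sub_distrib,
        ← Finset.smul_sum, ← Finset.smul_sum]
      module
    rw [e]
    refine I.add_mem (I.sub_mem (I.smul_mem _ ?_) (I.smul_mem _ ?_))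
      (I.sub_mem (I.smul_mem _ (I.sum_mem fun c _ => ?_)) (I.smul_mem _ (I.sum_mem fun c _ => ?_)))
    · exact hTh i ξ ui hi hui.symm hξ hs _ ((hT a).1 v)
    · exact hTh j ξ' uj hj huj.symm hξ' hs' _ ((hTd a).1 v)
    · exact hF i ξ ui hi hui.symm hξ hs c _ ((hT c).1 _)
    · exact hF j ξ' uj hj huj.symm hξ' hs' c _ ((hTd c).1 _)
  · -- the kernel
    have g1 : ∀ a, T a v = 0 := fun a => (hT a).2 v fun w hw => hv w (hUW j hw)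
    have g2 : ∀ a, Td a v = 0 := fun a => (hTd a).2 v fun w hw => hv w (hUW i hw)
    have g3 : ∀ c, T c (ξd' a v) = 0 := fun c => (hT c).2 _ fun w hw => by
      rw [hξd']; exact hv _ (hUW j (hξ' a w hw))
    have g4 : ∀ c, Td c (ξd a v) = 0 := fun c => (hTd c).2 _ fun w hw => by
      rw [hξd]; exact hv _ (hUW i (hξ a w hw))
    unfold ZZ
    simp only [LinearMap.add_apply, LinearMap.sub_apply, LinearMap.smul_apply,
      LinearMap.sum_apply, Module.End.mul_apply, g1, g2, g3, g4, map_zero, sub_self, smul_zero,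
      Finset.sum_const_zero, add_zero]

end main

end Vale.Agent.P182.H887.ParZ
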