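import Vale.Agent.P182.H534.C0c
import Vale.Agent.P182.H478.OffX
import Vale.Agent.P182.H952.FB
import Vale.Agent.P182.H533.NB2
import Vale.Agent.P182.H398.NFlow
import Vale.Agent.P182.H647.Pair
import Vale.Agent.P182.H258.ChainWF
import Vale.Agent.P182.H735.Par2

/-!
# `TwoRow` and row C0
-/

namespace Vale.Agent.P182.H887.TwoRow

open Module Matrix Vale.Agent.P182.H533 Vale.Agent.P182.B1 Vale.Agent.P182.H922
  Vale.Agent.P182.H578 Vale.Agent.P182.H588 Vale.Agent.P182.H181 Vale.Agent.P182.H983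
  Vale.Agent.P182.H58.Glue7

universe u v w

variable {L : Type u} {V : Type v} {J : Type w} [Field L] [AddCommGroup V] [Module L V]
  [Fintype J] [DecidableEq J] [FiniteDimensional L V] {𝒟 : Cfg L V J} {u : J → L}
  {t t' : J → V} {W I : Submodule L V}
  {k : ℕ} {U : Fin k → Submodule L V} {d : Fin k → L} {p : Fin 3 → ℕ}

/-- two good bases of opposite parity -/
theorem exists_bases [IsAlgClosed L] [CharZero L] (hC : Ctx 𝒟 u) (hM : MaxCoreU 𝒟 u t)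
    (B : H983.Blk 𝒟 u t t' W I U d p) {i j : Fin k} (hij : d i ≠ d j) :
    ∃ x y x' y' : L, x' + y' * d i = -(x + y * d i) ∧ x' + y' * d j = x + y * d j ∧
      (∀ m, x + y * d m ≠ 0) ∧ (∀ m, x' + y' * d m ≠ 0) ∧
      S2.Cen 𝒟 t t' W I x y ∧ S2.Cen 𝒟 t t' W I x' y' ∧
      H398.Cent 𝒟 (tm t t' x y) W I U d ∧ H398.Cent 𝒟 (tm t t' x' y') W I U d ∧
      RowS 𝒟 u t t' W I x y ∧ RowS 𝒟 u t t' W I x' y' := by
  obtain ⟨F, hF, hF0, h⟩ := S2.exists_lines B hC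
  obtain ⟨x, y, x', y', h1, h2, h3, h4⟩ := H647.exists_pair hF hF0 hij
  have key : ∀ x y : L, (∀ b ∈ F, b.1 * x + b.2 * y ≠ 0) → (∀ m, x + y * d m ≠ 0) ∧
      S2.Cen 𝒟 t t' W I x y ∧ H398.Cent 𝒟 (tm t t' x y) W I U d ∧
      RowS 𝒟 u t t' W I x y := by
    intro x y hxy
    obtain ⟨k1, k2⟩ := h x y hxy
    have hcen : S2.Cen 𝒟 t t' W I x y := fun M a b c => (k2 M a b c).1
    refine ⟨k1, hcen, fun M a b c i' j' hd v hv w hw => ?_, S2.rowS two_ne_zero B hC hM k1 hcen⟩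
    rw [hC.good.form.symm]
    exact (k2 M a b c).2 j' i' hd.symm w hw v hv
  obtain ⟨k1, k2, k3, k4⟩ := key x y h3
  obtain ⟨m1, m2, m3, m4⟩ := key x' y' h4
  exact ⟨x, y, x', y', h1, h2, k1, m1, k2, m2, k3, m3, k4, m4⟩

/-- adjoints exist -/
theorem exists_adj {q : V →ₗ[L] V →ₗ[L] L} (hq : IsForm q) (T : Fin 3 → End L V) :
    ∃ Td : Fin 3 → End L V, ∀ a, IsAdj q (T a) (Td a) := by
  have h : ∀ a, ∃ A : End L V, ∀ v w, q (A v) w = q v (T a w) := fun a =>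
    hq.exists_end (q.compl₂ (T a))
  choose A hA using h
  refine ⟨A, fun a v w => ?_⟩
  rw [hq.symm, ← hA, hq.symm]

/-- **The flows of the admissible triples.** -/
theorem twoRow [IsAlgClosed L] [CharZero L] (hC : Ctx 𝒟 u) (hM : MaxCoreU 𝒟 u t)
    (B : H983.Blk 𝒟 u t t' W I U d p) {i j : Fin k} (hij : d i ≠ d j) :
    H534.TwoRow 𝒟 u t t' W I U d i j := by
  have hG := hC.good
  have hK := hC.krel
  have hne : i ≠ j := fun e => hij (by rw [e])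
  obtain ⟨x, y, x', y', hi', hj', hu, hu', hcen, hcen', hct, hct', hS, hS'⟩ :=
    exists_bases hC hM B hij
  refine ⟨x, y, hu, fun T hA => ?_⟩
  -- the tensors
  have hT : ∀ a, T a ∈ Ten 𝒟.q (U i) (U j) := fun a => ⟨hA.range a, hA.ker a⟩
  obtain ⟨Td, hadj⟩ := exists_adj hG.form T
  have hTd : ∀ a, Td a ∈ Ten 𝒟.q (U j) (U i) := fun a => H258.flip_ten hG.form (hT a) (hadj a)
  have hadj' : ∀ a v w, 𝒟.q (Td a v) w = 𝒟.q v (T a w) := fun a v w => by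
    rw [hG.form.symm, ← hadj, hG.form.symm]
  -- the sections
  obtain ⟨ξ, hξ0, hs⟩ := exists_sec (S := Res 𝒟 (tm t t' x y)) (U := U i)
    (st_tm_U hG hK B (hu i))
  obtain ⟨ξ', hξ0', hs'⟩ := exists_sec (S := Res 𝒟 (tm t t' x y)) (U := U j)
    (st_tm_U hG hK B (hu j))
  have hξ : ∀ a, ∀ w ∈ U i, ξ a w ∈ U i := fun a w _ => hξ0 a w
  have hξ' : ∀ a, ∀ w ∈ U j, ξ' a w ∈ U j := fun a w _ => hξ0' a w
  obtain ⟨ξd, hξd⟩ := exists_adj hG.form ξ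
  obtain ⟨ξd', hξd'⟩ := exists_adj hG.form ξ'
  -- the second base
  have D : H533.C0.Dat 𝒟 u t t' W I U d p i j T Td x y := ⟨hG, hK, B, hij, hA, hadj', hu⟩
  have D' : H533.C0.Dat 𝒟 u t t' W I U d p i j T Td x' y' := D.swap hu' hi' hj'
  have hSi : ∀ w ∈ U i, ∀ a, Res 𝒟 (tm t t' x' y') a w = Res 𝒟 (tm t t' x y) a w :=
    fun w hw a => by rw [res_tm hG hK B x' y' hw, res_tm hG hK B x y hw, hi', neg_sq]
  have hSj : ∀ w ∈ U j, ∀ a, Res 𝒟 (tm t t' x' y') a w = Res 𝒟 (tm t t' x y) a w :=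
    fun w hw a => by rw [res_tm hG hK B x' y' hw, res_tm hG hK B x y hw, hj']
  have hs2 : ∀ w ∈ U i, ∑ a, Res 𝒟 (tm t t' x' y') a (ξ a w) = w := fun w hw => by
    rw [Finset.sum_congr rfl fun a _ => hSi _ (hξ a w hw) a]
    exact hs w hw
  have hs2' : ∀ w ∈ U j, ∑ a, Res 𝒟 (tm t t' x' y') a (ξ' a w) = w := fun w hw => by
    rw [Finset.sum_congr rfl fun a _ => hSj _ (hξ' a w hw) a]
    exact hs' w hw
  -- the flows
  obtain ⟨n, R, E, F, FG⟩ := H952.exists_FB hC hM B hu hcen hne hT hTd hadj hA.sum hA.comm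
    hξ hξ' hs hs' hξd hξd'
  obtain ⟨n', R', E', F', FG'⟩ := H952.exists_FB hC hM B hu' hcen' hne hT hTd hadj D'.adm.sum
    D'.adm.comm hξ hξ' hs2 hs2' hξd hξd'
  have hN : H533.C0.FlowAt 𝒟 u t t' I U T Td x y n R :=
    ⟨F.memR, F.tau, F.om, FG.nI, H398.NBlk.mapU hG hK B hu hct (Y := fun a => T a - Td a)
      ⟨F.memR, F.tau, F.om, FG.nW⟩ FG.Ysk FG.YS⟩
  have hN' : H533.C0.FlowAt 𝒟 u t t' I U T Td x' y' n' R' :=
    ⟨F'.memR, F'.tau, F'.om, FG'.nI, H398.NBlk.mapU hG hK B hu' hct' (Y := fun a => T a - Td a)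
      ⟨F'.memR, F'.tau, F'.om, FG'.nW⟩ FG'.Ysk FG'.YS⟩
  obtain ⟨b1, b2, b3, b4⟩ := D.nb2 hu' hi' hj' hN hN'
  obtain ⟨w1, w2⟩ := H258.chain_WF hG B hK hne hi' hj' (hu i) (hu j) hS hS' hT hadj hA.sum
    hA.comm
  refine ⟨x', y', Td, ξ, ξ', ξd, ξd', n, n', R, R', ?_, fun a v hv => D.rule_j hN a hv,
    fun r _ hΓ => H735.two_hZ hG hK B hT hTd hξ hξ' hξd hξd' hs hs' (hu i) (hu j) hΓ⟩
  exact { dij := hij, hi := hu i, hj := hu j, hi' := hi', hj' := hj', T_mem := hT,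
          Td_mem := hTd, adj := hadj, TW := w1, TdW := w2, F := F, F' := F', N := b1, N' := b2,
          diffj := b3, diffi := b4,
          par := fun r _ _ a l =>
            H735.two_par hG hK B hT hTd hξ hξ' hξd hξd' hi' hj' r a l }

/-- **Row C0.** -/
theorem rowC0 [IsAlgClosed L] [CharZero L] (hC : Ctx 𝒟 u) (hM : MaxCoreU 𝒟 u t)
    (B : H983.Blk 𝒟 u t t' W I U d p) : H983.RowC0 𝒟 u t W I :=
  H534.rowC0_of_two hC.good hC.krel B (H478.OffX.offRow hC hM B) fun _ _ hij =>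
    twoRow hC hM B hij

end Vale.Agent.P182.H887.TwoRow
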